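import Mathlib

/-!
Real inequalities for the chain argument.
-/

open Real

noncomputable section

namespace Vale.Agent.P084.Gen

lemma sqrt_le_sub_div {c d w : ℝ} (hc : 0 < c) (_hd : 0 ≤ d) (hw : 0 ≤ w) (h : w = c ^ 2 - d) :
    √w ≤ c - d / (2 * c) := by
  have hdc : d / (2 * c) ≤ c := by
    rw [div_le_iff₀ (by positivity)]; nlinarith
  rw [Real.sqrt_le_iff]
  refine ⟨by linarith, ?_⟩
  have e : (c - d / (2 * c)) ^ 2 = c ^ 2 - d + (d / (2 * c)) ^ 2 := by field_simp; ring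
  nlinarith [sq_nonneg (d / (2 * c))]

lemma ratio_eq {T b η : ℝ} (hT : T ≠ 0) (hb : b ^ 2 + 4 * T = 1) :
    (T + b * η - η ^ 2) / T = (1 + b / (2 * T) * η) ^ 2 - η ^ 2 / (4 * T ^ 2) := by
  field_simp
  linear_combination -(4 * η ^ 2) * hb

/-- The second order upper bound for `√(t(1-t)(1-s^2))` around `(t, σ)`. -/
lemma weight_le {t η σ s : ℝ} (ht : 0 < t) (ht1 : t < 1) (hσ : |σ| < 1) (hs : |s| ≤ 1)
    (htη : 0 ≤ t + η) (htη1 : t + η ≤ 1)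
    (hU : 0 < 1 + (1 - 2 * t) / (2 * (t * (1 - t))) * η) :
    √((t + η) * (1 - (t + η)) / (t * (1 - t))) * √((1 - σ ^ 2) * (1 - s ^ 2)) ≤
      (1 + (1 - 2 * t) / (2 * (t * (1 - t))) * η
          - η ^ 2 / (4 * (t * (1 - t)) ^ 2) / (2 * (1 + (1 - 2 * t) / (2 * (t * (1 - t))) * η)))
        * (1 - σ * s - (s - σ) ^ 2 / (2 * (1 - σ * s))) := by
  have hT : 0 < t * (1 - t) := mul_pos ht (by linarith)
  have hσs : 0 < 1 - σ * s := by
    have : σ * s ≤ |σ| * |s| := (le_abs_self _).trans (abs_mul σ s).le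
    nlinarith [abs_nonneg σ, abs_nonneg s]
  have h1 : 0 ≤ (t + η) * (1 - (t + η)) := mul_nonneg htη (by linarith)
  have hσ2 : σ ^ 2 ≤ 1 := by nlinarith [abs_nonneg σ, sq_abs σ]
  have hs2 : s ^ 2 ≤ 1 := by nlinarith [abs_nonneg s, sq_abs s]
  have a := sqrt_le_sub_div hU (d := η ^ 2 / (4 * (t * (1 - t)) ^ 2)) (by positivity)
    (div_nonneg h1 hT.le) (by
      rw [show (t + η) * (1 - (t + η)) = t * (1 - t) + (1 - 2 * t) * η - η ^ 2 by ring]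
      exact ratio_eq hT.ne' (by ring))
  have b := sqrt_le_sub_div hσs (d := (s - σ) ^ 2) (sq_nonneg _)
    (mul_nonneg (sub_nonneg.2 hσ2) (sub_nonneg.2 hs2)) (by ring)
  exact mul_le_mul a b (Real.sqrt_nonneg _) ((Real.sqrt_nonneg _).trans a)

/-- The strict inequality that drives the argument. -/
lemma gap {t σ κ ma m δ r r' ρ ν : ℝ} (ht : 0 < t) (ht1 : t < 1) (hσ : |σ| ≤ 1) (hma : 0 ≤ ma)
    (hκ : κ = ma * σ) (hup : ma * (1 + σ) ≤ 1 - t)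
    (hm : ma ≤ m - δ) (hr : 1 - t ≤ r) (hν : 1 - t - κ ≤ ν) (hr' : ν + (m - δ) ≤ r')
    (hρ : r + (m - δ) ≤ ρ) :
    |2 * (t * (1 - t)) + κ * (1 - 2 * t)| + 2 * (1 - t) * ((1 - t) - max κ 0)
        + max (-κ) 0 / 4 ≤ √(r' * ρ) + √(r * ν) := by
  obtain ⟨hσ1, hσ2⟩ := abs_le.1 hσ
  rcases le_or_gt 0 σ with h | h
  · have hκ0 : 0 ≤ κ := hκ ▸ mul_nonneg hma h
    have hκm : κ ≤ ma := by subst hκ; nlinarith
    have hκ1 : κ ≤ (1 - t) / 2 := by subst hκ; nlinarith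
    rw [max_eq_left hκ0, max_eq_right (by linarith : -κ ≤ 0)]
    have a : (1 - t) ≤ √(r' * ρ) := Real.le_sqrt_of_sq_le (by
      rw [sq]; exact mul_le_mul (by linarith) (by linarith) (by linarith) (by linarith))
    have b : (1 - t) - κ ≤ √(r * ν) := Real.le_sqrt_of_sq_le (by
      rw [sq]; exact mul_le_mul (by linarith) (by linarith) (by linarith) (by linarith))
    have c : |2 * (t * (1 - t)) + κ * (1 - 2 * t)| = 2 * (t * (1 - t)) + κ * (1 - 2 * t) := by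
      refine abs_of_nonneg ?_
      rcases le_or_gt t (1 / 2) with h' | h' <;> nlinarith
    rw [c]; linarith [mul_nonneg hκ0 ht.le]
  · have hκ0 : κ ≤ 0 := hκ ▸ mul_nonpos_of_nonneg_of_nonpos hma h.le
    have hn : -κ ≤ ma := by subst hκ; nlinarith
    rw [max_eq_right hκ0, max_eq_left (by linarith : (0:ℝ) ≤ -κ)]
    have a : (1 - t) + 5 / 4 * (-κ) ≤ √(r' * ρ) := Real.le_sqrt_of_sq_le (by
      have h2 := mul_le_mul (show (1 - t) + 2 * (-κ) ≤ r' by linarith)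
        (show (1 - t) + (-κ) ≤ ρ by linarith) (by linarith) (by linarith)
      nlinarith [sq_nonneg κ])
    have b : (1 - t) ≤ √(r * ν) := Real.le_sqrt_of_sq_le (by
      rw [sq]; exact mul_le_mul (by linarith) (by linarith) (by linarith) (by linarith))
    have c : |2 * (t * (1 - t)) + κ * (1 - 2 * t)| ≤ 2 * (t * (1 - t)) + (-κ) := by
      rw [abs_le]; constructor <;> nlinarith
    linarith

/-- The lower bound of the margin in terms of the near extremal ratio. -/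
lemma margin {t σ κ ma M : ℝ} (hM : 0 < M) (hM1 : M ≤ 1) (ht : 0 < t) (ht1 : t < 1)
    (hσ : |σ| < 1) (hκ : κ = ma * σ) (hma : ma = M * √(t * (1 - t)) / √(1 - σ ^ 2))
    (hup : ma * (1 + σ) ≤ 1 - t) :
    M ^ 4 / 64 ≤ 2 * (1 - t) * ((1 - t) - max κ 0) + max (-κ) 0 / 4 := by
  obtain ⟨hσ1, hσ2⟩ := abs_lt.1 hσ
  have hY : 0 < 1 - σ ^ 2 := by nlinarith
  have hT : 0 < t * (1 - t) := mul_pos ht (by linarith)
  have hma0 : 0 ≤ ma := by rw [hma]; positivity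
  have hsq : ma ^ 2 * (1 - σ ^ 2) = M ^ 2 * (t * (1 - t)) := by
    rw [hma, div_pow, mul_pow, Real.sq_sqrt hT.le, Real.sq_sqrt hY.le]; field_simp
  -- the first bound, squared
  have key : M ^ 2 * t * (1 + σ) ≤ (1 - t) * (1 - σ) := by
    have h1 : (ma * (1 + σ)) ^ 2 ≤ (1 - t) ^ 2 := pow_le_pow_left₀ (by nlinarith) hup 2
    have h2 : (ma * (1 + σ)) ^ 2 * (1 - σ) = M ^ 2 * (t * (1 - t)) * (1 + σ) := by
      linear_combination (1 + σ) * hsq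
    have h3 : M ^ 2 * (t * (1 - t)) * (1 + σ) ≤ (1 - t) ^ 2 * (1 - σ) := by
      rw [← h2]; exact mul_le_mul_of_nonneg_right h1 (by linarith)
    refine le_of_mul_le_mul_left ?_ (by linarith : (0:ℝ) < 1 - t)
    linarith
  have hmax : max κ 0 ≤ (1 - t) / 2 := by
    refine max_le ?_ (by linarith)
    subst hκ; nlinarith
  have hmain : (1 - t) ^ 2 ≤ 2 * (1 - t) * ((1 - t) - max κ 0) := by
    have := mul_le_mul_of_nonneg_left hmax (by linarith : (0:ℝ) ≤ 1 - t)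
    linarith [sq (1 - t)]
  have hM2 : M ^ 2 ≤ 1 := pow_le_one₀ hM.le hM1
  have hM2' : 0 < M ^ 2 := pow_pos hM 2
  have hM4 : M ^ 4 ≤ M ^ 2 := by
    calc M ^ 4 = M ^ 2 * M ^ 2 := by ring
      _ ≤ 1 * M ^ 2 := mul_le_mul_of_nonneg_right hM2 hM2'.le
      _ = M ^ 2 := one_mul _
  have hmx : 0 ≤ max (-κ) 0 := le_max_right _ _
  rcases le_or_gt (M ^ 2 / 4) (1 - t) with h | h
  · have : (M ^ 2 / 4) ^ 2 ≤ (1 - t) ^ 2 := pow_le_pow_left₀ (by linarith) h 2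
    have e : (M ^ 2 / 4) ^ 2 = M ^ 4 / 16 := by ring
    linarith [pow_pos hM 4]
  · have ht34 : 3 / 4 ≤ t := by linarith
    have hσn : σ ≤ -(1 / 2) := by
      by_contra hc
      have h1 : M ^ 2 * t * (1 / 2) ≤ M ^ 2 * t * (1 + σ) :=
        mul_le_mul_of_nonneg_left (by linarith) (by positivity)
      have h2 : (1 - t) * (1 - σ) ≤ (1 - t) * (3 / 2) :=
        mul_le_mul_of_nonneg_left (by linarith) (by linarith)
      have h3 : M ^ 2 * (3 / 4) ≤ M ^ 2 * t := mul_le_mul_of_nonneg_left ht34 hM2'.le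
      linarith
    have hbig : M ^ 2 * t / 2 ≤ ma := by
      refine (pow_le_pow_iff_left₀ (n := 2) (by positivity) hma0 two_ne_zero).1 ?_
      refine le_of_mul_le_mul_right ?_ hY
      rw [hsq]
      have h1 : M ^ 2 * t * (1 - σ ^ 2) ≤ 4 * (1 - t) := by
        have h' := mul_le_mul_of_nonneg_left key (by linarith : (0:ℝ) ≤ 1 - σ)
        have h'' : (1 - σ) * ((1 - t) * (1 - σ)) ≤ 2 * ((1 - t) * 2) :=
          mul_le_mul (by linarith) (mul_le_mul_of_nonneg_left (by linarith) (by linarith))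
            (mul_nonneg (by linarith) (by linarith)) (by norm_num)
        calc M ^ 2 * t * (1 - σ ^ 2) = (1 - σ) * (M ^ 2 * t * (1 + σ)) := by ring
          _ ≤ _ := h'
          _ ≤ 4 * (1 - t) := by linarith
      calc (M ^ 2 * t / 2) ^ 2 * (1 - σ ^ 2) = M ^ 2 * t / 4 * (M ^ 2 * t * (1 - σ ^ 2)) := by ring
        _ ≤ M ^ 2 * t / 4 * (4 * (1 - t)) := mul_le_mul_of_nonneg_left h1 (by positivity)
        _ = M ^ 2 * (t * (1 - t)) := by ring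
    have h3 : M ^ 2 * (3 / 4) ≤ M ^ 2 * t := mul_le_mul_of_nonneg_left ht34 hM2'.le
    have h4 : ma * (1 / 2) ≤ -κ := by
      rw [hκ, ← mul_neg]; exact mul_le_mul_of_nonneg_left (by linarith) hma0
    have := le_max_left (-κ) 0
    linarith [sq_nonneg (1 - t)]

/-- A quadratic form with small cross term is bounded below. -/
lemma form_ge {α β γ c ε Δ : ℝ} (hγ : 0 < γ) (hd : c ^ 2 ≤ 4 * γ * (α - β)) :
    β * ε ^ 2 ≤ c * ε * Δ + α * ε ^ 2 + γ * Δ ^ 2 := by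
  have h : 4 * γ * (c * ε * Δ + α * ε ^ 2 + γ * Δ ^ 2 - β * ε ^ 2) =
      (2 * γ * Δ + c * ε) ^ 2 + (4 * γ * (α - β) - c ^ 2) * ε ^ 2 := by ring
  have h0 : 0 ≤ 4 * γ * (c * ε * Δ + α * ε ^ 2 + γ * Δ ^ 2 - β * ε ^ 2) :=
    h.symm ▸ add_nonneg (sq_nonneg _) (mul_nonneg (by linarith) (sq_nonneg _))
  nlinarith [nonneg_of_mul_nonneg_right h0 (by linarith)]

/-- Discriminant of the form attached to one link of the chain. -/
lemma link_disc {p T ma m δ ξ γ₁ γ₂ r r' ρ ν S : ℝ} (hr : 0 < r) (hr' : 0 < r') (hρ : 0 < ρ)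
    (hν : 0 < ν) (hS : S = √(r' * ρ) + √(r * ν)) (hT : 0 < T) (hξ : 0 ≤ ξ) (hξ1 : ξ ≤ 1 / 4)
    (hρu : ρ ≤ r + m) (hνl : r' - m ≤ ν) (hρl : r + (m - δ) ≤ ρ) (hνu : ν ≤ r' - (m - δ))
    (hmδ : 0 ≤ m - δ) (hδ : 2 * δ ≤ ξ * (r + r')) (hma : 0 < ma)
    (hγ₁ : 0 ≤ γ₁) (hγ₂ : 0 ≤ γ₂)
    (hγ : 4 * γ₁ * γ₂ = (1 - 3 * ξ) ^ 2 * (ma ^ 2 / (4 * T ^ 2)))
    (hmain : |2 * T * p| * m ≤ ma * (1 - 4 * ξ) * S) :
    p ^ 2 * (√(r' * ρ) - √(r * ν)) ^ 2 ≤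
      4 * γ₂ * (ρ + ν) * (γ₁ * (r + r') - ξ * γ₁ * r') := by
  set a := √(r' * ρ)
  set b := √(r * ν)
  have ha : a ^ 2 = r' * ρ := Real.sq_sqrt (by positivity)
  have hb : b ^ 2 = r * ν := Real.sq_sqrt (by positivity)
  have hSp : 0 < S := hS ▸ add_pos (Real.sqrt_pos.2 (by positivity)) (Real.sqrt_pos.2 (by positivity))
  have h0 : r * ν ≤ r' * ρ := by
    have h1 := mul_le_mul_of_nonneg_left hρl hr'.le
    have h2 := mul_le_mul_of_nonneg_left hνu hr.le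
    nlinarith [mul_nonneg hmδ (add_pos hr hr').le]
  have hD : |a - b| * S ≤ m * (r + r') := by
    have hab : 0 < a + b := hS ▸ hSp
    calc |a - b| * S = |(a - b) * (a + b)| := by rw [abs_mul, abs_of_pos hab, hS]
      _ = r' * ρ - r * ν := by
        rw [show (a - b) * (a + b) = r' * ρ - r * ν by rw [← ha, ← hb]; ring,
          abs_of_nonneg (sub_nonneg.2 h0)]
      _ ≤ r' * (r + m) - r * (r' - m) := sub_le_sub (mul_le_mul_of_nonneg_left hρu hr'.le)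
          (mul_le_mul_of_nonneg_left hνl hr.le)
      _ = m * (r + r') := by ring
  have h1 : (|2 * T * p| * (|a - b| * S)) ^ 2 ≤ ((ma * (1 - 4 * ξ) * S) * (r + r')) ^ 2 := by
    refine pow_le_pow_left₀ (by positivity) ?_ 2
    calc |2 * T * p| * (|a - b| * S) ≤ |2 * T * p| * (m * (r + r')) :=
          mul_le_mul_of_nonneg_left hD (abs_nonneg _)
      _ = (|2 * T * p| * m) * (r + r') := by ring
      _ ≤ _ := mul_le_mul_of_nonneg_right hmain (by linarith)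
  have h2 : p ^ 2 * (a - b) ^ 2 ≤ ma ^ 2 / (4 * T ^ 2) * ((1 - 4 * ξ) * (r + r')) ^ 2 := by
    have : (2 * T * S) ^ 2 * (p ^ 2 * (a - b) ^ 2) ≤
        (2 * T * S) ^ 2 * (ma ^ 2 / (4 * T ^ 2) * ((1 - 4 * ξ) * (r + r')) ^ 2) := by
      convert h1 using 1
      · rw [mul_pow |2 * T * p|, sq_abs, mul_pow |a - b|, sq_abs]; ring
      · field_simp; ring
    exact le_of_mul_le_mul_left this (by positivity)
  refine h2.trans ?_
  have h3 : (1 - ξ) * (r + r') ≤ ρ + ν := by linarith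
  have h4 : γ₁ * ((1 - ξ) * (r + r')) ≤ γ₁ * (r + r') - ξ * γ₁ * r' := by
    linarith [mul_nonneg (mul_nonneg hξ hγ₁) hr.le]
  have h5 : ((1 - 4 * ξ) * (r + r')) ^ 2 ≤ (1 - 3 * ξ) ^ 2 * ((1 - ξ) * (r + r')) ^ 2 := by
    rw [← mul_pow]
    refine pow_le_pow_left₀ (mul_nonneg (by linarith) (by linarith)) ?_ 2
    linarith [mul_nonneg (mul_nonneg hξ hξ) (add_pos hr hr').le]
  calc ma ^ 2 / (4 * T ^ 2) * ((1 - 4 * ξ) * (r + r')) ^ 2
      ≤ ma ^ 2 / (4 * T ^ 2) * ((1 - 3 * ξ) ^ 2 * ((1 - ξ) * (r + r')) ^ 2) :=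
        mul_le_mul_of_nonneg_left h5 (by positivity)
    _ = 4 * γ₂ * ((1 - ξ) * (r + r')) * (γ₁ * ((1 - ξ) * (r + r'))) := by
        linear_combination -(((1 - ξ) * (r + r')) ^ 2) * hγ
    _ ≤ _ := by
        have h6 : 0 ≤ (1 - ξ) * (r + r') := mul_nonneg (by linarith) (by linarith)
        refine mul_le_mul ?_ h4 (by positivity) (by positivity)
        exact mul_le_mul_of_nonneg_left (by linarith) (by positivity)

/-- The second order gain of the weight around `(t, σ)`, with `T = t(1-t)` and `L` its log slope. -/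
def gain (ma T L σ η s : ℝ) : ℝ :=
  ma * ((1 + L * η) * ((s - σ) ^ 2 / (2 * (1 - σ * s)))
    + η ^ 2 / (4 * T ^ 2) / (2 * (1 + L * η)) * (1 - σ * s - (s - σ) ^ 2 / (2 * (1 - σ * s))))

lemma one_sub_pos {σ s : ℝ} (hσ : |σ| < 1) (hs : |s| ≤ 1) : 0 < 1 - σ * s := by
  have : σ * s ≤ |σ| * |s| := (le_abs_self _).trans (abs_mul σ s).le
  nlinarith [abs_nonneg σ, abs_nonneg s]

lemma corr_nonneg {σ s : ℝ} (hσ : |σ| < 1) (hs : |s| ≤ 1) :
    0 ≤ 1 - σ * s - (s - σ) ^ 2 / (2 * (1 - σ * s)) := by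
  have hσs := one_sub_pos hσ hs
  have hσ2 : σ ^ 2 ≤ 1 := by nlinarith [abs_nonneg σ, sq_abs σ]
  have hs2 : s ^ 2 ≤ 1 := by nlinarith [abs_nonneg s, sq_abs s]
  exact (Real.sqrt_nonneg _).trans (sqrt_le_sub_div hσs (sq_nonneg _)
    (mul_nonneg (sub_nonneg.2 hσ2) (sub_nonneg.2 hs2))
    (by ring : (1 - σ ^ 2) * (1 - s ^ 2) = (1 - σ * s) ^ 2 - (s - σ) ^ 2))

lemma gain_far {ma T L σ η s : ℝ} (hma : 0 ≤ ma) (hσ : |σ| < 1) (hs : |s| ≤ 1)
    (hη : |L * η| ≤ 1 / 2) : ma * (s - σ) ^ 2 / 8 ≤ gain ma T L σ η s := by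
  have hσs := one_sub_pos hσ hs
  have hU : 1 / 2 ≤ 1 + L * η := by linarith [(abs_le.1 hη).1]
  have hV : 1 - σ * s ≤ 2 := by
    have : -(σ * s) ≤ |σ| * |s| := (neg_le_abs _).trans (abs_mul σ s).le
    nlinarith [abs_nonneg σ, abs_nonneg s]
  have h1 : (s - σ) ^ 2 / 4 ≤ (s - σ) ^ 2 / (2 * (1 - σ * s)) :=
    div_le_div_of_nonneg_left (sq_nonneg _) (by positivity) (by linarith)
  have h2 : (1 / 2) * ((s - σ) ^ 2 / 4) ≤ (1 + L * η) * ((s - σ) ^ 2 / (2 * (1 - σ * s))) :=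
    mul_le_mul hU h1 (by positivity) (by linarith)
  have hU0 : (0:ℝ) ≤ 1 + L * η := by linarith
  have h3 := mul_nonneg (div_nonneg (by positivity : 0 ≤ η ^ 2 / (4 * T ^ 2))
    (mul_nonneg zero_le_two hU0)) (corr_nonneg hσ hs)
  unfold gain
  calc ma * (s - σ) ^ 2 / 8 = ma * ((1 / 2) * ((s - σ) ^ 2 / 4)) := by ring
    _ ≤ _ := mul_le_mul_of_nonneg_left (by linarith) hma

lemma gain_near {ma T L σ η s ξ : ℝ} (hma : 0 ≤ ma) (hT : 0 < T) (hσ : |σ| < 1) (hs : |s| ≤ 1)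
    (hξ : 0 < ξ) (hξ1 : ξ ≤ 1 / 4) (hη : |L * η| ≤ ξ) (hΔ : |s - σ| ≤ ξ * (1 - σ ^ 2)) :
    (1 - 3 * ξ) * (ma * (1 - σ ^ 2) / (8 * T ^ 2)) * η ^ 2
      + (1 - 3 * ξ) * (ma / (2 * (1 - σ ^ 2))) * (s - σ) ^ 2 ≤ gain ma T L σ η s := by
  have hY : 0 < 1 - σ ^ 2 := by nlinarith [abs_nonneg σ, sq_abs σ]
  have hσs := one_sub_pos hσ hs
  have hU := abs_le.1 hη
  set Y := 1 - σ ^ 2 with hYdef
  have hσd : |σ * (s - σ)| ≤ ξ * Y := by
    rw [abs_mul]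
    exact (mul_le_of_le_one_left (abs_nonneg _) hσ.le).trans hΔ
  have hV := abs_le.1 hσd
  have eV : 1 - σ * s = Y - σ * (s - σ) := by rw [hYdef]; ring
  have hVlo : (1 - ξ) * Y ≤ 1 - σ * s := by linarith
  have hVhi : 1 - σ * s ≤ (1 + ξ) * Y := by linarith
  -- the part quadratic in `s - σ`
  have a : (1 - 3 * ξ) * ((s - σ) ^ 2 / (2 * Y))
      ≤ (1 + L * η) * ((s - σ) ^ 2 / (2 * (1 - σ * s))) := by
    have h1 : (s - σ) ^ 2 / (2 * ((1 + ξ) * Y)) ≤ (s - σ) ^ 2 / (2 * (1 - σ * s)) :=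
      div_le_div_of_nonneg_left (sq_nonneg _) (by positivity) (by linarith)
    refine le_trans ?_ (mul_le_mul (show 1 - ξ ≤ 1 + L * η by linarith) h1 (by positivity)
      (by linarith))
    rw [show (1 - ξ) * ((s - σ) ^ 2 / (2 * ((1 + ξ) * Y)))
      = (1 - ξ) / (1 + ξ) * ((s - σ) ^ 2 / (2 * Y)) by field_simp]
    refine mul_le_mul_of_nonneg_right ?_ (by positivity)
    rw [le_div_iff₀ (by linarith)]; linarith [mul_nonneg hξ.le hξ.le]
  -- the part quadratic in `η`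
  have hN : (s - σ) ^ 2 / (2 * (1 - σ * s)) ≤ ξ * Y := by
    rw [div_le_iff₀ (by positivity)]
    have h1 : (s - σ) ^ 2 ≤ (ξ * Y) ^ 2 := by rw [← sq_abs]; exact pow_le_pow_left₀ (abs_nonneg _) hΔ 2
    have h2 : ξ * Y * (2 * ((1 - ξ) * Y)) ≤ ξ * Y * (2 * (1 - σ * s)) :=
      mul_le_mul_of_nonneg_left (by linarith) (by positivity)
    nlinarith [mul_nonneg (mul_nonneg hξ.le (show (0:ℝ) ≤ 2 - 3 * ξ by linarith)) (sq_nonneg Y)]
  have b : (1 - 3 * ξ) * (η ^ 2 / (4 * T ^ 2) / 2 * Y) ≤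
      η ^ 2 / (4 * T ^ 2) / (2 * (1 + L * η)) *
        (1 - σ * s - (s - σ) ^ 2 / (2 * (1 - σ * s))) := by
    have h1 : η ^ 2 / (4 * T ^ 2) / (2 * (1 + ξ)) ≤ η ^ 2 / (4 * T ^ 2) / (2 * (1 + L * η)) :=
      div_le_div_of_nonneg_left (by positivity) (by linarith) (by linarith)
    refine le_trans ?_ (mul_le_mul h1 (show (1 - 2 * ξ) * Y ≤ _ by linarith)
      (mul_nonneg (by linarith) hY.le) (div_nonneg (by positivity) (by linarith)))
    rw [show η ^ 2 / (4 * T ^ 2) / (2 * (1 + ξ)) * ((1 - 2 * ξ) * Y)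
      = (1 - 2 * ξ) / (1 + ξ) * (η ^ 2 / (4 * T ^ 2) / 2 * Y) by field_simp]
    refine mul_le_mul_of_nonneg_right ?_ (by positivity)
    rw [le_div_iff₀ (by linarith)]; linarith [mul_nonneg hξ.le hξ.le]
  unfold gain
  calc _ = ma * ((1 - 3 * ξ) * ((s - σ) ^ 2 / (2 * Y))
        + (1 - 3 * ξ) * (η ^ 2 / (4 * T ^ 2) / 2 * Y)) := by ring
    _ ≤ _ := mul_le_mul_of_nonneg_left (add_le_add a b) hma

end Vale.Agent.P084.Gen
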