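import Vale.Agent.P084.Ext
import Vale.Agent.P084.Gen.Real

/-!
Rays, chains of chords, and the basic test inequality.
-/

open Set Metric

noncomputable section

namespace Vale.Agent.P084.Gen

section Ray

variable {Z : Type*} [NormedAddCommGroup Z] [NormedSpace ℝ Z]

/-- The second intersection of a line through an interior point with the unit sphere. -/
lemma exists_ray {w a : Z} (hw : ‖w‖ < 1) (ha : ‖a‖ = 1) :
    ∃ (c : Z) (l : ℝ), ‖c‖ = 1 ∧ 0 < l ∧ c - w = l • (w - a) := by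
  have hd : 0 < ‖w - a‖ := norm_pos_iff.mpr fun h ↦ by
    rw [sub_eq_zero.mp h, ha] at hw; exact lt_irrefl _ hw
  set R := 2 / ‖w - a‖
  have hR : 1 ≤ ‖w + R • (w - a)‖ := by
    have h1 : ‖R • (w - a)‖ = 2 := by
      rw [norm_smul, Real.norm_eq_abs, abs_of_pos (by positivity), div_mul_cancel₀ _ hd.ne']
    have h2 := norm_sub_le (w + R • (w - a)) w
    rw [add_sub_cancel_left, h1] at h2
    linarith
  have h0 : ‖w + (0:ℝ) • (w - a)‖ ≤ 1 := by simpa using hw.le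
  obtain ⟨l, hl, hl1⟩ := intermediate_value_Icc (show (0:ℝ) ≤ R by positivity)
    (show Continuous fun s : ℝ ↦ ‖w + s • (w - a)‖ by fun_prop).continuousOn ⟨h0, hR⟩
  refine ⟨w + l • (w - a), l, hl1, hl.1.lt_of_ne' fun h ↦ ?_, add_sub_cancel_left _ _⟩
  subst h; simp at hl1; linarith

lemma norm_of_ray {w a c : Z} {l : ℝ} (hl : 0 < l) (h : c - w = l • (w - a)) :
    ‖c - a‖ = ‖c - w‖ + ‖w - a‖ := by
  have : c - a = (l + 1) • (w - a) := by
    rw [add_smul, one_smul, ← h]; abel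
  rw [this, h, norm_smul, norm_smul, Real.norm_eq_abs, Real.norm_eq_abs, abs_of_pos (by linarith),
    abs_of_pos hl]
  ring

end Ray

variable {X Y : Type*} [NormedAddCommGroup X] [NormedSpace ℝ X] [NormedAddCommGroup Y]
  [NormedSpace ℝ Y] {F : X → Y} {G : Y → X}

lemma unit_dist (e : SphereExt F G) {a b : X} (ha : ‖a‖ = 1) (hb : ‖b‖ = 1) :
    ‖F a - F b‖ = ‖a - b‖ := by simpa [ha, hb] using e.hcone a b

/-- `a` is a base point: `F a` is as far from `Q` as permitted, up to `δ`. -/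
def Base (F : X → Y) (z : X) (Q : Y) (m δ : ℝ) (a : X) : Prop :=
  ‖a‖ = 1 ∧ ‖z - a‖ + (m - δ) ≤ ‖Q - F a‖ ∧ ‖Q - F a‖ ≤ ‖z - a‖ + m

/-- One round of the chain: a ray in `Y` and then a ray in `X`. -/
lemma exists_round (e : SphereExt F G) {z : X} {Q : Y} {m δ : ℝ} (hz : ‖z‖ < 1) (hQ : ‖Q‖ < 1)
    (hstar : ∀ y : X, ‖y‖ = 1 → ‖Q - F y‖ ≤ ‖z - y‖ + m) {a : X} (ha : Base F z Q m δ a) :
    ∃ (b a' : X) (l μ : ℝ), ‖b‖ = 1 ∧ 0 < l ∧ F b - Q = l • (Q - F a) ∧ 0 < μ ∧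
      z - a' = μ • (b - z) ∧ Base F z Q m δ a' ∧
      ‖F b - Q‖ ≤ ‖b - z‖ - (m - δ) ∧ ‖b - z‖ - m ≤ ‖F b - Q‖ := by
  obtain ⟨ha1, halo, -⟩ := ha
  have hFa : ‖F a‖ = 1 := by rw [e.hnorm, ha1]
  obtain ⟨η, l, hη, hl, hray⟩ := exists_ray hQ hFa
  obtain ⟨b, rfl⟩ : ∃ b, F b = η := ⟨G η, e.right η⟩
  have hb : ‖b‖ = 1 := by rw [← e.hnorm, hη]
  obtain ⟨a', μ, ha', hμ, hray'⟩ := exists_ray hz hb
  have h1 := norm_of_ray hl hray
  rw [unit_dist e hb ha1] at h1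
  have h2 : ‖b - a‖ ≤ ‖b - z‖ + ‖z - a‖ := norm_sub_le_norm_sub_add_norm_sub _ _ _
  have h3 := norm_of_ray hμ hray'
  have h4 : ‖a' - b‖ ≤ ‖F b - Q‖ + ‖Q - F a'‖ := by
    rw [norm_sub_rev, ← unit_dist e hb ha']
    exact norm_sub_le_norm_sub_add_norm_sub _ _ _
  rw [norm_sub_rev a' z, norm_sub_rev z b] at h3
  have h5 := hstar a' ha'
  refine ⟨b, a', l, μ, hb, hl, hray, hμ, ?_, ⟨ha', by linarith, h5⟩, by linarith, by linarith⟩
  rw [show b - z = -(z - b) by abel, smul_neg, ← hray', neg_sub]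

/-- A norming functional. -/
lemma exists_norming (v : Y) : ∃ k : StrongDual ℝ Y, ‖k‖ ≤ 1 ∧ k v = ‖v‖ := by
  obtain ⟨k, hk, hkv⟩ := exists_dual_vector'' ℝ v
  exact ⟨k, hk, by simpa using hkv⟩

lemma abs_apply_le {k : StrongDual ℝ Y} (hk : ‖k‖ ≤ 1) (v : Y) : |k v| ≤ ‖v‖ := by
  simpa using k.le_of_opNorm_le hk v

/-- The weight `√(t(1-t)(1-s^2))`. -/
def weight (t s : ℝ) : ℝ := √(t * (1 - t)) * √(1 - s ^ 2)

/-- The global bound that the chain argument refutes when it is almost attained. -/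
def Bound (F : X → Y) (x : X) (P M : ℝ) : Prop :=
  ∀ t : ℝ, 0 < t → t < 1 → ∀ y : X, ‖y‖ = 1 → ∀ k : StrongDual ℝ Y, ‖k‖ ≤ 1 →
    k (t • F x - F y) - ‖t • x - y‖ ≤ P + M * weight t (k (F x))

variable {x : X} {P M t σ ma κ m : ℝ}

lemma scale_eq (ht : 0 < t) (ht1 : t < 1) (hσ : |σ| < 1)
    (hma : ma = M * √(t * (1 - t)) / √(1 - σ ^ 2)) {η s : ℝ} :
    M * weight (t + η) s =
      ma * (√((t + η) * (1 - (t + η)) / (t * (1 - t))) * √((1 - σ ^ 2) * (1 - s ^ 2))) := by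
  have hT : 0 < t * (1 - t) := mul_pos ht (by linarith)
  have hY : 0 < 1 - σ ^ 2 := by nlinarith [abs_nonneg σ, sq_abs σ]
  have hT' : √(t * (1 - t)) ≠ 0 := (Real.sqrt_pos.2 hT).ne'
  have hY' : √(1 - σ ^ 2) ≠ 0 := (Real.sqrt_pos.2 hY).ne'
  rw [hma, Real.sqrt_div' _ hT.le, Real.sqrt_mul hY.le, weight]
  field_simp

/-- The inequality obtained from a point near `t`. -/
lemma test (hB : Bound F x P M) (hx : ‖F x‖ = 1) (hM : 0 ≤ M) (ht : 0 < t) (ht1 : t < 1)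
    (hσ : |σ| < 1) (hma : ma = M * √(t * (1 - t)) / √(1 - σ ^ 2)) (hκ : κ = ma * σ)
    (hm : m = P + ma) {η : ℝ} (hη : 0 < t + η) (hη1 : t + η < 1)
    (hU : 0 < 1 + (1 - 2 * t) / (2 * (t * (1 - t))) * η) {y : X} (hy : ‖y‖ = 1)
    {k : StrongDual ℝ Y} (hk : ‖k‖ ≤ 1) :
    k ((t + κ) • F x - F y) - ‖(t + η) • x - y‖ - m
      + η * (σ - ma * (1 - σ ^ 2) * ((1 - 2 * t) / (2 * (t * (1 - t)))))
      + (1 + κ * ((1 - 2 * t) / (2 * (t * (1 - t))))) * η * (k (F x) - σ)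
      + gain ma (t * (1 - t)) ((1 - 2 * t) / (2 * (t * (1 - t)))) σ η (k (F x)) ≤ 0 := by
  have hs : |k (F x)| ≤ 1 := (abs_apply_le hk _).trans hx.le
  have h0 : 0 ≤ (t + η) * (1 - (t + η)) := mul_nonneg hη.le (by linarith)
  have hma0 : 0 ≤ ma := by rw [hma]; positivity
  have h := hB (t + η) hη hη1 y hy k hk
  rw [scale_eq ht ht1 hσ hma] at h
  have h' := mul_le_mul_of_nonneg_left (weight_le ht ht1 hσ hs hη.le hη1.le hU) hma0
  have e1 : k ((t + η) • F x - F y) = (η - κ) * k (F x) + k ((t + κ) • F x - F y) := by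
    simp only [map_sub, map_smul, smul_eq_mul]; ring
  rw [e1] at h
  unfold gain
  subst hκ hm
  linarith

/-- The limit case of the test: `F y` is within `‖t x - y‖ + m` of the shifted point. -/
lemma star (hB : Bound F x P M) (hx : ‖F x‖ = 1) (hM : 0 ≤ M) (ht : 0 < t) (ht1 : t < 1)
    (hσ : |σ| < 1) (hma : ma = M * √(t * (1 - t)) / √(1 - σ ^ 2)) (hκ : κ = ma * σ)
    (hm : m = P + ma) (y : X) (hy : ‖y‖ = 1) :
    ‖(t + κ) • F x - F y‖ ≤ ‖t • x - y‖ + m := by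
  obtain ⟨k, hk, hkv⟩ := exists_norming ((t + κ) • F x - F y)
  have h := test hB hx hM ht ht1 hσ hma hκ hm (η := 0) (by simpa using ht) (by simpa using ht1)
    (by simp) hy hk
  have hma0 : 0 ≤ ma := by rw [hma]; positivity
  have g0 : 0 ≤ gain ma (t * (1 - t)) ((1 - 2 * t) / (2 * (t * (1 - t)))) σ 0 (k (F x)) :=
    le_trans (by positivity) (gain_far hma0 hσ ((abs_apply_le hk _).trans hx.le) (by simp))
  simp only [add_zero, zero_mul, mul_zero] at h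
  linarith

end Vale.Agent.P084.Gen
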