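import Vale.Agent.P084.Gen.Geo

/-!
One link of the chain, the first link, and the contradiction.
-/

open Real

noncomputable section

namespace Vale.Agent.P084.Gen

/-- The gains of the two tests of a link dominate the cross term. -/
lemma link_lower {p T L ma σ s r r' ρ ν θ ξ η γ₁ γ₂ : ℝ} (hma : 0 < ma) (hT : 0 < T)
    (hσ : |σ| < 1) (hs : |s| ≤ 1) (hξ : 0 < ξ) (hξ1 : ξ ≤ 1 / 4) (hρ : 0 < ρ) (hν : 0 < ν)
    (hr : 0 < r) (hr' : 0 < r') (hθ : θ = √(r * ρ) / √(r' * ν))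
    (hγ₁ : γ₁ = (1 - 3 * ξ) * (ma * (1 - σ ^ 2) / (8 * T ^ 2)))
    (hγ₂ : γ₂ = (1 - 3 * ξ) * (ma / (2 * (1 - σ ^ 2))))
    (hdisc : p ^ 2 * (√(r' * ρ) - √(r * ν)) ^ 2 ≤
      4 * γ₂ * (ρ + ν) * (γ₁ * (r + r') - ξ * γ₁ * r'))
    (h1 : |L * η| ≤ ξ) (h2 : |L * (θ * η)| ≤ ξ)
    (h3 : |p| * max |η| |θ * η| ≤ ma * (ξ * (1 - σ ^ 2)) / 16)
    (h4 : ξ * γ₁ * η ^ 2 ≤ ma * (ξ * (1 - σ ^ 2)) ^ 2 / 16) :
    ξ * γ₁ * ρ * η ^ 2 ≤ p * (η * (ρ - ν * θ)) * (s - σ)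
      + ρ * gain ma T L σ η s + ν * gain ma T L σ (-(θ * η)) s := by
  rcases le_or_gt |s - σ| (ξ * (1 - σ ^ 2)) with h | h
  · have g1 := gain_near hma.le hT hσ hs hξ hξ1 h1 h
    have g2 := gain_near (η := -(θ * η)) hma.le hT hσ hs hξ hξ1
      (by rwa [mul_neg, abs_neg]) h
    rw [← hγ₁, ← hγ₂] at g1 g2
    have hY : 0 < 1 - σ ^ 2 := by nlinarith [abs_nonneg σ, sq_abs σ]
    have hγ₂0 : 0 < γ₂ := hγ₂ ▸ mul_pos (by linarith) (by positivity)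
    have hdisc' : (p * (ρ - ν * θ)) ^ 2 ≤
        4 * (γ₂ * (ρ + ν)) * (γ₁ * (ρ + ν * θ ^ 2) - ξ * γ₁ * ρ) := by
      have hA : √(r' * ν) ^ 2 = r' * ν := Real.sq_sqrt (by positivity)
      have hB : √(r * ρ) ^ 2 = r * ρ := Real.sq_sqrt (by positivity)
      have e1 : ν * θ = √ρ * √(r * ν) / √r' := by
        rw [hθ, Real.sqrt_mul hr.le, Real.sqrt_mul hr'.le, Real.sqrt_mul hr.le]
        field_simp
        rw [Real.sq_sqrt hν.le]
      have e2 : ρ - ν * θ = √ρ / √r' * (√(r' * ρ) - √(r * ν)) := by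
        rw [e1, Real.sqrt_mul hr'.le]
        field_simp
        linear_combination -(√r') * Real.sq_sqrt hρ.le
      have e3 : ν * θ ^ 2 = r * ρ / r' := by
        rw [hθ, div_pow, hA, hB]; field_simp
      have e4 : (p * (ρ - ν * θ)) ^ 2 = ρ / r' * (p ^ 2 * (√(r' * ρ) - √(r * ν)) ^ 2) := by
        rw [e2, mul_pow, mul_pow, div_pow, Real.sq_sqrt hρ.le, Real.sq_sqrt hr'.le]; ring
      rw [e3, e4]
      calc _ ≤ ρ / r' * (4 * γ₂ * (ρ + ν) * (γ₁ * (r + r') - ξ * γ₁ * r')) :=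
            mul_le_mul_of_nonneg_left hdisc (by positivity)
        _ = _ := by field_simp; ring
    have f := form_ge (ε := η) (Δ := s - σ) (mul_pos hγ₂0 (add_pos hρ hν)) hdisc'
    have g1' := mul_le_mul_of_nonneg_left g1 hρ.le
    have g2' := mul_le_mul_of_nonneg_left g2 hν.le
    linarith
  · have g1 := gain_far (T := T) hma.le hσ hs (h1.trans (by linarith))
    have g2 := gain_far (T := T) (L := L) (η := -(θ * η)) hma.le hσ hs
      (by rw [mul_neg, abs_neg]; linarith)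
    have hd : |p * (η * (ρ - ν * θ))| ≤ (ρ + ν) * (ma * (ξ * (1 - σ ^ 2)) / 16) := by
      refine le_trans ?_ (mul_le_mul_of_nonneg_left h3 (by positivity))
      rw [abs_mul, show η * (ρ - ν * θ) = ρ * η - ν * (θ * η) by ring,
        mul_left_comm (ρ + ν) |p|]
      refine mul_le_mul_of_nonneg_left ?_ (abs_nonneg _)
      calc |ρ * η - ν * (θ * η)| ≤ |ρ * η| + |ν * (θ * η)| := abs_sub _ _
        _ = ρ * |η| + ν * |θ * η| := by rw [abs_mul, abs_mul ν, abs_of_pos hρ, abs_of_pos hν]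
        _ ≤ ρ * max |η| |θ * η| + ν * max |η| |θ * η| :=
          add_le_add (mul_le_mul_of_nonneg_left (le_max_left _ _) hρ.le)
            (mul_le_mul_of_nonneg_left (le_max_right _ _) hν.le)
        _ = _ := by ring
    have hY0 : 0 ≤ ξ * (1 - σ ^ 2) := by
      have : 0 ≤ 1 - σ ^ 2 := by nlinarith [abs_nonneg σ, sq_abs σ]
      positivity
    have e1 : -((ρ + ν) * (ma * (s - σ) ^ 2 / 16)) ≤ p * (η * (ρ - ν * θ)) * (s - σ) := by
      refine le_trans ?_ (neg_abs_le _)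
      rw [abs_mul, neg_le_neg_iff]
      refine le_trans (mul_le_mul_of_nonneg_right hd (abs_nonneg _)) ?_
      rw [← sq_abs (s - σ), sq, mul_assoc]
      refine mul_le_mul_of_nonneg_left ?_ (by positivity)
      have := mul_le_mul_of_nonneg_right h.le (abs_nonneg (s - σ))
      have := mul_le_mul_of_nonneg_left this hma.le
      linarith
    have e2 : (ξ * (1 - σ ^ 2)) ^ 2 ≤ (s - σ) ^ 2 := by
      rw [← sq_abs (s - σ)]; exact pow_le_pow_left₀ hY0 h.le 2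
    have e3 : ξ * γ₁ * ρ * η ^ 2 ≤ (ρ + ν) * (ma * (s - σ) ^ 2 / 16) := by
      calc ξ * γ₁ * ρ * η ^ 2 = ρ * (ξ * γ₁ * η ^ 2) := by ring
        _ ≤ ρ * (ma * (s - σ) ^ 2 / 16) := mul_le_mul_of_nonneg_left
            (h4.trans (by linarith [mul_le_mul_of_nonneg_left e2 hma.le])) hρ.le
        _ ≤ _ := mul_le_mul_of_nonneg_right (by linarith) (by positivity)
    have g1' := mul_le_mul_of_nonneg_left g1 hρ.le
    have g2' := mul_le_mul_of_nonneg_left g2 hν.le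
    linarith

variable {X Y : Type*} [NormedAddCommGroup X] [NormedSpace ℝ X] [NormedAddCommGroup Y]
  [NormedSpace ℝ Y]

/-- The sum of the two test distances of `b`. -/
def spread (x b : X) (t ε : ℝ) : ℝ := ‖(t + ε) • x - b‖ + ‖(t - ε) • x - b‖

lemma spread_ge (x b : X) (t ε : ℝ) : 2 * ‖t • x - b‖ ≤ spread x b t ε := by
  refine le_trans ?_ (norm_add_le _ _)
  rw [show (t + ε) • x - b + ((t - ε) • x - b) = (2:ℝ) • (t • x - b) by module, norm_smul,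
    Real.norm_ofNat]

/-- A maximiser up to `δ`, with the lower bound `c₀` for all small parameters. -/
structure Extremal (F : X → Y) (x : X) (P M t σ ma κ m δ c₀ ξ : ℝ) : Prop where
  bound : Bound F x P M
  norm_x : ‖x‖ = 1
  norm_Fx : ‖F x‖ = 1
  M_pos : 0 < M
  M_le : M ≤ 1
  σ_lt : |σ| < 1
  ma_def : ma = M * √(t * (1 - t)) / √(1 - σ ^ 2)
  κ_def : κ = ma * σ
  m_def : m = P + ma
  δ_nonneg : 0 ≤ δ
  δ_le : δ ≤ P
  c₀_pos : 0 < c₀
  c₀_t : c₀ ≤ t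
  c₀_t' : c₀ ≤ 1 - t
  c₀_σ : c₀ ≤ 1 - σ ^ 2
  up : ma * (1 + σ) ≤ 1 - t
  lo : ma * (1 - σ) ≤ t
  ξ_pos : 0 < ξ
  ξ_le : ξ ≤ M ^ 4 / 2560
  P_le : P ≤ ξ * ma
  δ_c₀ : δ ≤ ξ * c₀

variable {F : X → Y} {G : Y → X} {x : X} {P M t σ ma κ m δ c₀ ξ : ℝ}

namespace Extremal

variable (d : Extremal F x P M t σ ma κ m δ c₀ ξ)
include d

lemma t_pos : 0 < t := d.c₀_pos.trans_le d.c₀_t
lemma t_lt : t < 1 := by linarith [d.c₀_pos, d.c₀_t']
lemma T_pos : 0 < t * (1 - t) := mul_pos d.t_pos (by linarith [d.t_lt])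
lemma ξ_le' : ξ ≤ 1 / 10 := by
  have := pow_le_one₀ (n := 4) d.M_pos.le d.M_le
  linarith [d.ξ_le]
lemma ma_ge : M * c₀ ≤ ma := by
  have hT : c₀ ≤ √(t * (1 - t)) := Real.le_sqrt_of_sq_le (by
    rw [sq]; exact mul_le_mul d.c₀_t d.c₀_t' d.c₀_pos.le d.t_pos.le)
  have hY : 0 < √(1 - σ ^ 2) := Real.sqrt_pos.2 (d.c₀_pos.trans_le d.c₀_σ)
  have hY1 : √(1 - σ ^ 2) ≤ 1 := Real.sqrt_le_one.mpr (by linarith [sq_nonneg σ])
  rw [d.ma_def, le_div_iff₀ hY]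
  calc M * c₀ * √(1 - σ ^ 2) ≤ M * c₀ * 1 :=
        mul_le_mul_of_nonneg_left hY1 (mul_nonneg d.M_pos.le d.c₀_pos.le)
    _ ≤ M * √(t * (1 - t)) := by rw [mul_one]; exact mul_le_mul_of_nonneg_left hT d.M_pos.le
lemma ma_pos : 0 < ma := (mul_pos d.M_pos d.c₀_pos).trans_le d.ma_ge
lemma ma_le : ma ≤ 1 / 2 := by linarith [d.up, d.lo]
lemma m_sub : ma ≤ m - δ := by linarith [d.m_def, d.δ_le]
lemma abs_κ : |κ| ≤ 1 / 2 := by
  rw [d.κ_def, abs_mul, abs_of_pos d.ma_pos]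
  calc ma * |σ| ≤ ma * 1 := mul_le_mul_of_nonneg_left d.σ_lt.le d.ma_pos.le
    _ ≤ _ := by linarith [d.ma_le]
lemma shift_bounds : 0 ≤ t + κ ∧ c₀ / 2 ≤ 1 - (t + κ) := by
  obtain ⟨h1, h2⟩ := abs_lt.1 d.σ_lt
  have := d.κ_def; have := d.c₀_t'; have := d.up; have := d.lo; have := d.ma_pos; have := d.t_pos
  have := d.c₀_pos
  rcases le_or_gt 0 σ with h | h
  · have : 0 ≤ κ := by subst κ; positivity
    have : κ ≤ (1 - t) / 2 := by subst κ; nlinarith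
    constructor <;> linarith
  · have : κ ≤ 0 := by subst κ; exact mul_nonpos_of_nonneg_of_nonpos d.ma_pos.le h.le
    have : -t ≤ κ := by subst κ; nlinarith
    constructor <;> linarith
lemma norm_Q : ‖(t + κ) • F x‖ = t + κ := by
  rw [norm_smul, d.norm_Fx, mul_one, Real.norm_eq_abs, abs_of_nonneg d.shift_bounds.1]
lemma norm_z : ‖t • x‖ = t := by
  rw [norm_smul, d.norm_x, mul_one, Real.norm_eq_abs, abs_of_pos d.t_pos]
lemma Q_lt : ‖(t + κ) • F x‖ < 1 := by linarith [d.norm_Q, d.shift_bounds.2, d.c₀_pos]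

lemma dist_bounds (y : X) (hy : ‖y‖ = 1) : 1 - t ≤ ‖t • x - y‖ ∧ ‖t • x - y‖ ≤ 2 := by
  have h1 := norm_sub_norm_le y (t • x)
  have h2 := norm_sub_le (t • x) y
  rw [norm_sub_rev, hy, d.norm_z] at h1
  rw [hy, d.norm_z] at h2
  constructor <;> linarith [d.t_lt]

lemma image_bounds (v : Y) (hv : ‖v‖ = 1) :
    1 - (t + κ) ≤ ‖v - (t + κ) • F x‖ ∧ ‖v - (t + κ) • F x‖ ≤ 2 := by
  have h1 := norm_sub_norm_le v ((t + κ) • F x)
  have h2 := norm_sub_le v ((t + κ) • F x)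
  rw [hv, d.norm_Q] at h1 h2
  constructor <;> linarith [d.shift_bounds.2, d.c₀_pos]

end Extremal

/-- The cross coefficient. -/
def cross (t κ : ℝ) : ℝ := 1 + κ * ((1 - 2 * t) / (2 * (t * (1 - t))))

/-- A bound for the log slope of the weight. -/
def slopeBound (c₀ : ℝ) : ℝ := 1 / (2 * c₀ ^ 2)

/-- A bound for the cross coefficient. -/
def crossBound (c₀ : ℝ) : ℝ := 1 + slopeBound c₀

/-- The growth factor of weights and steps. -/
def growth (c₀ : ℝ) : ℝ := 8 / c₀ ^ 2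

/-- Steps small enough for all the expansions. -/
def Small (M c₀ ξ η : ℝ) : Prop :=
  |η| < c₀ ∧ slopeBound c₀ * |η| ≤ ξ ∧ crossBound c₀ * |η| ≤ M * ξ * c₀ ^ 2 / 16 ∧
    |η| ≤ ξ * c₀ ^ 4

lemma Small.mono {η η' : ℝ} (hc : 0 < c₀) (h : Small M c₀ ξ η') (hη : |η| ≤ |η'|) :
    Small M c₀ ξ η := by
  have hs : 0 ≤ slopeBound c₀ := by unfold slopeBound; positivity
  have hp : 0 ≤ crossBound c₀ := by unfold crossBound; linarith
  exact ⟨hη.trans_lt h.1, (mul_le_mul_of_nonneg_left hη hs).trans h.2.1,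
    (mul_le_mul_of_nonneg_left hη hp).trans h.2.2.1, hη.trans h.2.2.2⟩

namespace Extremal

variable (d : Extremal F x P M t σ ma κ m δ c₀ ξ)
include d

lemma abs_slope : |(1 - 2 * t) / (2 * (t * (1 - t)))| ≤ slopeBound c₀ := by
  have h1 : c₀ ^ 2 ≤ t * (1 - t) := by
    rw [sq]; exact mul_le_mul d.c₀_t d.c₀_t' d.c₀_pos.le d.t_pos.le
  have h0 : (0:ℝ) < 2 * c₀ ^ 2 := mul_pos two_pos (pow_pos d.c₀_pos 2)
  rw [abs_div, abs_of_pos (mul_pos two_pos d.T_pos)]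
  exact div_le_div₀ zero_le_one (abs_le.2 ⟨by linarith [d.t_lt], by linarith [d.t_pos]⟩) h0
    (by linarith)

lemma abs_cross : |cross t κ| ≤ crossBound c₀ := by
  refine (abs_add_le _ _).trans ?_
  rw [abs_one, abs_mul]
  have := mul_le_mul d.abs_κ d.abs_slope (abs_nonneg _) (by norm_num)
  have hs : 0 ≤ slopeBound c₀ := by unfold slopeBound; have := d.c₀_pos; positivity
  unfold crossBound; linarith

/-- The test inequality in the form used below. -/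
lemma test' {η : ℝ} (hη : Small M c₀ ξ η) {y : X} (hy : ‖y‖ = 1) {k : StrongDual ℝ Y}
    (hk : ‖k‖ ≤ 1) :
    k ((t + κ) • F x - F y) - ‖(t + η) • x - y‖ - m
      + η * (σ - ma * (1 - σ ^ 2) * ((1 - 2 * t) / (2 * (t * (1 - t)))))
      + cross t κ * η * (k (F x) - σ)
      + gain ma (t * (1 - t)) ((1 - 2 * t) / (2 * (t * (1 - t)))) σ η (k (F x)) ≤ 0 := by
  obtain ⟨h1, h2⟩ := abs_lt.1 hη.1
  have hL := mul_le_mul_of_nonneg_right d.abs_slope (abs_nonneg η)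
  rw [← abs_mul] at hL
  have hU := (abs_le.1 (hL.trans hη.2.1)).1
  exact test d.bound d.norm_Fx d.M_pos.le d.t_pos d.t_lt d.σ_lt d.ma_def d.κ_def d.m_def
    (by linarith [d.c₀_t]) (by linarith [d.c₀_t']) (by linarith [d.ξ_le']) hy hk

/-- The first link. -/
lemma first (e : SphereExt F G) {h : ℝ} (hh : Small M c₀ ξ h) {b : X} (hb : ‖b‖ = 1)
    (hν : ‖F b - (t + κ) • F x‖ ≤ ‖b - t • x‖ - (m - δ)) :
    spread x b t h - 2 * ‖t • x - b‖ ≤ 4 * crossBound c₀ ^ 2 / (M * c₀) * h ^ 2 + 2 * δ := by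
  have key : ∀ η, |η| = |h| → ‖(t + η) • x - b‖ - ‖t • x - b‖ - δ
      + η * (σ - ma * (1 - σ ^ 2) * ((1 - 2 * t) / (2 * (t * (1 - t)))))
        ≤ 2 * crossBound c₀ ^ 2 / (M * c₀) * h ^ 2 := by
    intro η hη
    have hS := hh.mono d.c₀_pos hη.le
    have hz : ‖(t + η) • x‖ < 1 := by
      obtain ⟨h1, h2⟩ := abs_lt.1 hS.1
      rw [norm_smul, d.norm_x, mul_one, Real.norm_eq_abs, abs_lt]
      constructor <;> linarith [d.c₀_t, d.c₀_t', d.t_pos]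
    obtain ⟨y, l, hy, hl, hray⟩ := exists_ray hz hb
    obtain ⟨k, hk, hkv⟩ := exists_norming (F b - F y)
    have hd := norm_of_ray hl hray
    rw [norm_sub_rev y b, norm_sub_rev y] at hd
    have ht := d.test' hS hy hk
    have e1 : k ((t + κ) • F x - F y) = k ((t + κ) • F x - F b) + ‖b - y‖ := by
      rw [← unit_dist e hb hy, ← hkv, ← map_add, sub_add_sub_cancel]
    have e2 : -(‖t • x - b‖ - (m - δ)) ≤ k ((t + κ) • F x - F b) := by
      have := (abs_le.1 (abs_apply_le hk ((t + κ) • F x - F b))).1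
      rw [norm_sub_rev] at this
      rw [norm_sub_rev (t • x)]
      linarith
    have hL : |(1 - 2 * t) / (2 * (t * (1 - t))) * η| ≤ 1 / 2 := by
      rw [abs_mul]
      exact (mul_le_mul_of_nonneg_right d.abs_slope (abs_nonneg _)).trans
        (hS.2.1.trans (by linarith [d.ξ_le']))
    have g := gain_far (T := t * (1 - t)) d.ma_pos.le d.σ_lt
      ((abs_apply_le hk _).trans d.norm_Fx.le) hL
    have q : -(2 * crossBound c₀ ^ 2 / (M * c₀) * h ^ 2) ≤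
        cross t κ * η * (k (F x) - σ) + ma * (k (F x) - σ) ^ 2 / 8 := by
      have f := form_ge (β := -(2 * (cross t κ) ^ 2 / ma)) (α := 0) (γ := ma / 8) (c := cross t κ)
        (ε := η) (Δ := k (F x) - σ) (by linarith [d.ma_pos])
        (le_of_eq (by have := d.ma_pos.ne'; field_simp; ring))
      have : 2 * (cross t κ) ^ 2 / ma * η ^ 2 ≤ 2 * crossBound c₀ ^ 2 / (M * c₀) * h ^ 2 := by
        rw [← sq_abs η, hη, sq_abs]
        refine mul_le_mul_of_nonneg_right (div_le_div₀ (by positivity) ?_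
          (mul_pos d.M_pos d.c₀_pos) d.ma_ge) (sq_nonneg _)
        rw [← sq_abs (cross t κ)]
        exact mul_le_mul_of_nonneg_left (pow_le_pow_left₀ (abs_nonneg _) d.abs_cross 2) zero_le_two
      linarith
    linarith
  have h1 := key h rfl
  have h2 := key (-h) (abs_neg h)
  rw [← sub_eq_add_neg] at h2
  rw [show 4 * crossBound c₀ ^ 2 / (M * c₀) * h ^ 2
    = 2 * (2 * crossBound c₀ ^ 2 / (M * c₀) * h ^ 2) by ring]
  unfold spread
  generalize 2 * crossBound c₀ ^ 2 / (M * c₀) * h ^ 2 = C at h1 h2 ⊢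
  generalize σ - ma * (1 - σ ^ 2) * ((1 - 2 * t) / (2 * (t * (1 - t)))) = A at h1 h2
  linarith

lemma growth_pos : 0 < growth c₀ := div_pos (by norm_num) (pow_pos d.c₀_pos 2)

/-- The discriminant condition holds at every link. -/
lemma disc {r r' ρ ν : ℝ} (hr : 1 - t ≤ r) (hr2 : r ≤ 2) (hr' : 1 - t ≤ r') (hr'2 : r' ≤ 2)
    (hρ : r + (m - δ) ≤ ρ) (hρu : ρ ≤ r + m) (hρ2 : ρ ≤ 2) (hν : 1 - (t + κ) ≤ ν) (hν2 : ν ≤ 2)
    (hνu : ν ≤ r' - (m - δ)) (hνl : r' - m ≤ ν) :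
    cross t κ ^ 2 * (√(r' * ρ) - √(r * ν)) ^ 2 ≤
      4 * ((1 - 3 * ξ) * (ma / (2 * (1 - σ ^ 2)))) * (ρ + ν) *
        ((1 - 3 * ξ) * (ma * (1 - σ ^ 2) / (8 * (t * (1 - t)) ^ 2)) * (r + r')
          - ξ * ((1 - 3 * ξ) * (ma * (1 - σ ^ 2) / (8 * (t * (1 - t)) ^ 2))) * r') := by
  have hc := d.c₀_pos
  have hY : 0 < 1 - σ ^ 2 := hc.trans_le d.c₀_σ
  have hT := d.T_pos
  have hξ := d.ξ_pos
  have hξ' := d.ξ_le'
  have hmap := d.ma_pos
  have hmδ := d.m_sub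
  have h13 : 0 < 1 - 3 * ξ := by linarith
  have hc' := d.c₀_t'
  have hr0 : 0 < r := by linarith
  have hr'0 : 0 < r' := by linarith
  have hρ0 : 0 < ρ := by linarith
  have hν0 : 0 < ν := by linarith [d.shift_bounds.2]
  have hS := gap (δ := δ) (m := m) d.t_pos d.t_lt d.σ_lt.le hmap.le d.κ_def d.up hmδ hr
    (show 1 - t - κ ≤ ν by linarith) (show ν + (m - δ) ≤ r' by linarith) hρ
  have hμ0 := margin d.M_pos d.M_le d.t_pos d.t_lt d.σ_lt d.κ_def d.ma_def d.up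
  have hmain : |2 * (t * (1 - t)) * cross t κ| * m ≤
      ma * (1 - 4 * ξ) * (√(r' * ρ) + √(r * ν)) := by
    have e1 : 2 * (t * (1 - t)) * cross t κ = 2 * (t * (1 - t)) + κ * (1 - 2 * t) := by
      rw [cross, mul_add, mul_one, mul_left_comm (2 * (t * (1 - t))) κ,
        mul_div_cancel₀ _ (mul_pos two_pos hT).ne']
    rw [e1]
    set A := |2 * (t * (1 - t)) + κ * (1 - 2 * t)|
    set S := √(r' * ρ) + √(r * ν)
    have hS4 : S ≤ 4 := by
      have a1 : √(r' * ρ) ≤ 2 := Real.sqrt_le_iff.2 ⟨zero_le_two,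
        (mul_le_mul hr'2 hρ2 hρ0.le zero_le_two).trans (by norm_num)⟩
      have a2 : √(r * ν) ≤ 2 := Real.sqrt_le_iff.2 ⟨zero_le_two,
        (mul_le_mul hr2 hν2 hν0.le zero_le_two).trans (by norm_num)⟩
      linarith
    have hAS : A ≤ S * (1 - 10 * ξ) := by
      have : S * (10 * ξ) ≤ 4 * (10 * ξ) := mul_le_mul_of_nonneg_right hS4 (by positivity)
      linarith [d.ξ_le]
    have hmle : m ≤ ma * (1 + ξ) := by linarith [d.m_def, d.P_le]
    calc A * m ≤ S * (1 - 10 * ξ) * (ma * (1 + ξ)) :=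
          mul_le_mul hAS hmle (by linarith [d.δ_nonneg]) (mul_nonneg (by positivity) (by linarith))
      _ = ma * ((1 - 10 * ξ) * (1 + ξ)) * S := by ring
      _ ≤ ma * (1 - 4 * ξ) * S := mul_le_mul_of_nonneg_right
          (mul_le_mul_of_nonneg_left (by linarith [mul_nonneg hξ.le hξ.le]) hmap.le)
          (by positivity)
  refine link_disc (δ := δ) hr0 hr'0 hρ0 hν0 rfl hT hξ.le (by linarith) hρu hνl hρ hνu
    (by linarith) ?_ hmap (by positivity) (by positivity) (by field_simp; ring) hmain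
  linarith [d.δ_c₀, mul_le_mul_of_nonneg_left (show 2 * c₀ ≤ r + r' by linarith) hξ.le]

/-- A lower bound for the quadratic coefficient. -/
lemma coeff_ge :
    M * c₀ ^ 3 / 2 ≤ (1 - 3 * ξ) * (ma * (1 - σ ^ 2) / (8 * (t * (1 - t)) ^ 2)) := by
  have hc := d.c₀_pos
  have hM := d.M_pos
  have hT := d.T_pos
  have hξ' := d.ξ_le'
  have hc1 : c₀ ≤ 1 := by linarith [d.c₀_t, d.t_lt]
  have h8 : 8 * (t * (1 - t)) ^ 2 ≤ 1 / 2 := by
    have : t * (1 - t) ≤ 1 / 4 := by nlinarith [sq_nonneg (t - 1 / 2)]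
    linarith [pow_le_pow_left₀ hT.le this 2]
  have b1 : M * c₀ * c₀ ≤ ma * (1 - σ ^ 2) := mul_le_mul d.ma_ge d.c₀_σ hc.le d.ma_pos.le
  have b2 : M * c₀ * c₀ * 2 ≤ ma * (1 - σ ^ 2) / (8 * (t * (1 - t)) ^ 2) := by
    rw [le_div_iff₀ (by positivity)]
    have := mul_le_mul_of_nonneg_left h8 (show (0:ℝ) ≤ M * c₀ * c₀ * 2 by positivity)
    linarith
  calc M * c₀ ^ 3 / 2 = M * c₀ * c₀ * (c₀ / 2) := by ring
    _ ≤ M * c₀ * c₀ * ((1 - 3 * ξ) * 2) := mul_le_mul_of_nonneg_left (by linarith) (by positivity)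
    _ = (1 - 3 * ξ) * (M * c₀ * c₀ * 2) := by ring
    _ ≤ _ := mul_le_mul_of_nonneg_left b2 (by linarith)

/-- Small steps satisfy the hypotheses of `link_lower`. -/
lemma small_quad {η : ℝ} (hη : Small M c₀ ξ η) :
    ξ * ((1 - 3 * ξ) * (ma * (1 - σ ^ 2) / (8 * (t * (1 - t)) ^ 2))) * η ^ 2
      ≤ ma * (ξ * (1 - σ ^ 2)) ^ 2 / 16 := by
  have hc := d.c₀_pos
  have hc1 : c₀ ≤ 1 := by linarith [d.c₀_t, d.t_lt]
  have hξ := d.ξ_pos
  have hξ' := d.ξ_le'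
  have hmap := d.ma_pos
  have hY : 0 < 1 - σ ^ 2 := hc.trans_le d.c₀_σ
  have hT2 : c₀ ^ 4 ≤ (t * (1 - t)) ^ 2 := by
    rw [show c₀ ^ 4 = (c₀ * c₀) ^ 2 by ring]
    exact pow_le_pow_left₀ (by positivity) (mul_le_mul d.c₀_t d.c₀_t' hc.le d.t_pos.le) 2
  have h1 : η ^ 2 ≤ (ξ * c₀ ^ 4) ^ 2 := by
    rw [← sq_abs]; exact pow_le_pow_left₀ (abs_nonneg _) hη.2.2.2 2
  have h2 : (1 - 3 * ξ) * (ma * (1 - σ ^ 2) / (8 * (t * (1 - t)) ^ 2)) ≤ ma / (8 * c₀ ^ 4) := by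
    have := d.T_pos
    refine (mul_le_of_le_one_left (by positivity) (by linarith)).trans ?_
    exact div_le_div₀ hmap.le (mul_le_of_le_one_right hmap.le (by linarith [sq_nonneg σ]))
      (by positivity) (by linarith)
  calc _ ≤ ξ * (ma / (8 * c₀ ^ 4)) * (ξ * c₀ ^ 4) ^ 2 :=
        mul_le_mul (mul_le_mul_of_nonneg_left h2 hξ.le) h1 (sq_nonneg _) (by positivity)
    _ = ma * (ξ ^ 2 * c₀ ^ 2) / 16 * (2 * (ξ * c₀ ^ 2)) := by field_simp; ring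
    _ ≤ ma * (ξ ^ 2 * c₀ ^ 2) / 16 * 1 := by
        refine mul_le_mul_of_nonneg_left ?_ (by positivity)
        have := mul_le_mul hξ' (pow_le_one₀ (n := 2) hc.le hc1) (by positivity)
          (by norm_num : (0:ℝ) ≤ 1 / 10)
        linarith
    _ ≤ ma * (ξ * (1 - σ ^ 2)) ^ 2 / 16 := by
        rw [mul_one, mul_pow]
        have := pow_le_pow_left₀ hc.le d.c₀_σ 2
        gcongr

lemma small_cross {η η' : ℝ} (hη : Small M c₀ ξ η) (hη' : Small M c₀ ξ η') :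
    |cross t κ| * max |η| |η'| ≤ ma * (ξ * (1 - σ ^ 2)) / 16 := by
  have hmax : crossBound c₀ * max |η| |η'| ≤ M * ξ * c₀ ^ 2 / 16 := by
    rcases max_choice |η| |η'| with h | h <;> rw [h]
    · exact hη.2.2.1
    · exact hη'.2.2.1
  refine (mul_le_mul_of_nonneg_right d.abs_cross
    ((abs_nonneg _).trans (le_max_left _ _))).trans (hmax.trans ?_)
  have := mul_le_mul d.ma_ge (mul_le_mul_of_nonneg_left d.c₀_σ d.ξ_pos.le)
    (mul_nonneg d.ξ_pos.le d.c₀_pos.le) d.ma_pos.le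
  linarith

lemma small_slope {η : ℝ} (hη : Small M c₀ ξ η) :
    |(1 - 2 * t) / (2 * (t * (1 - t))) * η| ≤ ξ := by
  rw [abs_mul]; exact (mul_le_mul_of_nonneg_right d.abs_slope (abs_nonneg η)).trans hη.2.1

/-- The two tests of one link, for one sign. -/
lemma pair (e : SphereExt F G) {b₀ a b : X} {μ l w w' θ r r' ρ ν η η₀ : ℝ} (hμ : 0 < μ)
    (hax : t • x - a = μ • (b₀ - t • x)) (ha : ‖a‖ = 1) (hb : ‖b‖ = 1)
    (hby : F b - (t + κ) • F x = l • ((t + κ) • F x - F a))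
    (hρ : 0 < ρ) (hν : 0 < ν) (hlν : ν = l * ρ) (hr : 0 < r) (hr' : 0 < r') (hw' : 0 < w')
    (hw : w * ν = w' * ρ) (hθ : θ = √(r * ρ) / √(r' * ν))
    (hdisc : cross t κ ^ 2 * (√(r' * ρ) - √(r * ν)) ^ 2 ≤
      4 * ((1 - 3 * ξ) * (ma / (2 * (1 - σ ^ 2)))) * (ρ + ν) *
        ((1 - 3 * ξ) * (ma * (1 - σ ^ 2) / (8 * (t * (1 - t)) ^ 2)) * (r + r')
          - ξ * ((1 - 3 * ξ) * (ma * (1 - σ ^ 2) / (8 * (t * (1 - t)) ^ 2))) * r'))
    (hη : Small M c₀ ξ η) (hη' : Small M c₀ ξ (θ * η)) (hη₀ : θ * η = μ * η₀) :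
    w * ‖(t + η) • x - b‖ - w' * (μ * ‖(t + η₀) • x - b₀‖) - m * (w + w')
      + (w * η - w' * (θ * η)) * (σ - ma * (1 - σ ^ 2) * ((1 - 2 * t) / (2 * (t * (1 - t)))))
      + ξ * ((1 - 3 * ξ) * (ma * (1 - σ ^ 2) / (8 * (t * (1 - t)) ^ 2))) * (w * η ^ 2) ≤ 0 := by
  obtain ⟨hη1, hη2⟩ := abs_lt.1 hη.1
  have hzη : ‖(t + η) • x‖ < 1 := by
    rw [norm_smul, d.norm_x, mul_one, Real.norm_eq_abs, abs_lt]
    constructor <;> linarith [d.c₀_t, d.c₀_t', d.t_pos]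
  obtain ⟨y, j, hy, hj, hray⟩ := exists_ray hzη hb
  obtain ⟨k, hk, hkv⟩ := exists_norming (F b - F y)
  have hd := norm_of_ray hj hray
  rw [norm_sub_rev y b, norm_sub_rev y] at hd
  have hneg : Small M c₀ ξ (-(θ * η)) := hη'.mono d.c₀_pos (abs_neg _).le
  have t1 := d.test' hη hy hk
  have t2 := d.test' hneg ha hk
  have low := link_lower d.ma_pos d.T_pos d.σ_lt ((abs_apply_le hk (F x)).trans d.norm_Fx.le)
    d.ξ_pos (by linarith [d.ξ_le']) hρ hν hr hr' hθ rfl rfl hdisc (d.small_slope hη)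
    (d.small_slope hη') (d.small_cross hη hη') (d.small_quad hη)
  have e1 : k ((t + κ) • F x - F y)
      = -(l * k ((t + κ) • F x - F a)) + (‖(t + η) • x - y‖ + ‖(t + η) • x - b‖) := by
    rw [← hd, ← unit_dist e hb hy, ← hkv, ← smul_eq_mul, ← map_smul, ← hby, ← map_neg,
      neg_sub, ← map_add, sub_add_sub_cancel]
  have e3 : ‖(t + -(θ * η)) • x - a‖ = μ * ‖(t + η₀) • x - b₀‖ := by
    rw [hη₀, show (t + -(μ * η₀)) • x - a = (t • x - a) - (μ * η₀) • x by module, hax,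
      show μ • (b₀ - t • x) - (μ * η₀) • x = (-μ) • ((t + η₀) • x - b₀) by module,
      norm_smul, Real.norm_eq_abs, abs_neg, abs_of_pos hμ]
  rw [e1] at t1
  rw [e3] at t2
  generalize k ((t + κ) • F x - F a) = K at t1 t2
  generalize ‖(t + η) • x - y‖ = N₁ at t1
  generalize ‖(t + η) • x - b‖ = N at t1 ⊢
  generalize ‖(t + η₀) • x - b₀‖ = N₀ at t2 ⊢
  generalize k (F x) - σ = Δ at t1 t2 low
  generalize σ - ma * (1 - σ ^ 2) * ((1 - 2 * t) / (2 * (t * (1 - t)))) = A at t1 t2 ⊢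
  generalize cross t κ = p at t1 t2 low
  generalize gain ma (t * (1 - t)) ((1 - 2 * t) / (2 * (t * (1 - t)))) σ η (k (F x)) = g₁
    at t1 low
  generalize gain ma (t * (1 - t)) ((1 - 2 * t) / (2 * (t * (1 - t)))) σ (-(θ * η)) (k (F x)) = g₂
    at t2 low
  generalize ξ * ((1 - 3 * ξ) * (ma * (1 - σ ^ 2) / (8 * (t * (1 - t)) ^ 2))) = γ at low ⊢
  have hsum := add_le_add (mul_le_mul_of_nonneg_left t1 (mul_nonneg hw'.le hρ.le))
    (mul_le_mul_of_nonneg_left t2 (mul_nonneg hw'.le hν.le))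
  have low' := mul_le_mul_of_nonneg_left low hw'.le
  -- multiply the goal by `ν`
  refine nonpos_of_mul_nonpos_right ?_ hν
  subst hlν
  linear_combination hsum + low' + (N - m + η * A + γ * η ^ 2) * hw

/-- One further link: weights and steps are passed on, the excess drops. -/
lemma next (e : SphereExt F G) {b₀ a b : X} {μ l : ℝ} (hb₀ : ‖b₀‖ = 1) (hμ : 0 < μ)
    (hax : t • x - a = μ • (b₀ - t • x)) (ha : Base F (t • x) ((t + κ) • F x) m δ a)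
    (hb : ‖b‖ = 1) (hl : 0 < l) (hby : F b - (t + κ) • F x = l • ((t + κ) • F x - F a))
    (hνu : ‖F b - (t + κ) • F x‖ ≤ ‖b - t • x‖ - (m - δ))
    (hνl : ‖b - t • x‖ - m ≤ ‖F b - (t + κ) • F x‖)
    {w₀ ε₀ Wb Hb h : ℝ} (hw₀ : 0 < w₀) (hw₀b : w₀ ≤ Wb) (hε₀ : 0 < ε₀) (hε₀b : ε₀ ≤ Hb)
    (hH : Small M c₀ ξ (growth c₀ * Hb))
    (hinv : h ^ 2 / 2 * ‖t • x - b₀‖ ≤ w₀ * ε₀ ^ 2) :
    ∃ w ε, 0 < w ∧ w ≤ growth c₀ * Wb ∧ 0 < ε ∧ ε ≤ growth c₀ * Hb ∧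
      h ^ 2 / 2 * ‖t • x - b‖ ≤ w * ε ^ 2 ∧
      w * (spread x b t ε - 2 * ‖t • x - b‖) ≤ w₀ * (spread x b₀ t ε₀ - 2 * ‖t • x - b₀‖)
        - ξ * (M * c₀ ^ 3 / 2) * c₀ * h ^ 2 + 4 * δ * (growth c₀ * Wb) := by
  have hFb : ‖F b‖ = 1 := by rw [e.hnorm, hb]
  have hFa : ‖F a‖ = 1 := by rw [e.hnorm, ha.1]
  obtain ⟨hrlo, hrhi⟩ := d.dist_bounds a ha.1
  obtain ⟨hr'lo, hr'hi⟩ := d.dist_bounds b hb
  obtain ⟨hr₀lo, hr₀hi⟩ := d.dist_bounds b₀ hb₀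
  obtain ⟨hνlo, hνhi⟩ := d.image_bounds _ hFb
  obtain ⟨hρlo', hρhi⟩ := d.image_bounds _ hFa
  obtain ⟨ha1, hρl, hρu⟩ := ha
  rw [norm_sub_rev b (t • x)] at hνu hνl
  rw [norm_sub_rev (F a)] at hρlo' hρhi
  have hlν : ‖F b - (t + κ) • F x‖ = l * ‖(t + κ) • F x - F a‖ := by
    rw [hby, norm_smul, Real.norm_eq_abs, abs_of_pos hl]
  have hμr : ‖t • x - a‖ = μ * ‖t • x - b₀‖ := by
    rw [hax, norm_smul, Real.norm_eq_abs, abs_of_pos hμ, norm_sub_rev]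
  have hdisc := d.disc hrlo hrhi hr'lo hr'hi hρl hρu hρhi hνlo hνhi hνu hνl
  have hpair := fun w w' θ η η₀ ↦
    d.pair (w := w) (w' := w') (θ := θ) (η := η) (η₀ := η₀)
      (r := ‖t • x - a‖) (r' := ‖t • x - b‖) (ρ := ‖(t + κ) • F x - F a‖)
      (ν := ‖F b - (t + κ) • F x‖) e hμ hax ha1 hb hby
  have hc := d.c₀_pos
  have hc1 : c₀ ≤ 1 := by linarith [d.c₀_t, d.t_lt]
  have hmδ := d.m_sub
  have hmap := d.ma_pos
  have hgp := d.growth_pos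
  have hr₀ : c₀ ≤ ‖t • x - b₀‖ := d.c₀_t'.trans hr₀lo
  have hr' : c₀ ≤ ‖t • x - b‖ := d.c₀_t'.trans hr'lo
  have hr : c₀ ≤ ‖t • x - a‖ := d.c₀_t'.trans hrlo
  generalize ‖t • x - a‖ = r at *
  generalize hr'def : ‖t • x - b‖ = r' at *
  generalize hr₀def : ‖t • x - b₀‖ = r₀ at *
  generalize ‖(t + κ) • F x - F a‖ = ρ at *
  generalize ‖F b - (t + κ) • F x‖ = ν at *
  have hν : c₀ / 2 ≤ ν := d.shift_bounds.2.trans hνlo
  have hρ : c₀ ≤ ρ := by linarith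
  have hr0 : 0 < r := hc.trans_le hr
  have hr'0 : 0 < r' := hc.trans_le hr'
  have hρ0 : 0 < ρ := hc.trans_le hρ
  have hν0 : 0 < ν := (half_pos hc).trans_le hν
  set θ := √(r * ρ) / √(r' * ν) with hθdef
  have hθ0 : 0 < θ := by positivity
  have hθ2 : θ ^ 2 = r * ρ / (r' * ν) := by
    rw [hθdef, div_pow, Real.sq_sqrt (by positivity), Real.sq_sqrt (by positivity)]
  have hθlo : c₀ / 2 ≤ θ := by
    rw [← pow_le_pow_iff_left₀ (by positivity) hθ0.le two_ne_zero, hθ2, le_div_iff₀ (by positivity)]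
    calc (c₀ / 2) ^ 2 * (r' * ν) ≤ (c₀ / 2) ^ 2 * (2 * 2) :=
          mul_le_mul_of_nonneg_left (mul_le_mul hr'hi hνhi hν0.le zero_le_two) (by positivity)
      _ = c₀ * c₀ := by ring
      _ ≤ r * ρ := mul_le_mul hr hρ hc.le hr0.le
  have hμhi : μ ≤ 2 / c₀ := by
    rw [le_div_iff₀ hc]; linarith [mul_le_mul_of_nonneg_left hr₀ hμ.le]
  have hμlo : 1 / μ ≤ 2 / c₀ := by
    rw [div_le_div_iff₀ hμ hc, one_mul]; linarith [mul_le_mul_of_nonneg_left hr₀hi hμ.le]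
  have hg : 2 / c₀ ≤ growth c₀ := by
    rw [growth, div_le_div_iff₀ hc (by positivity)]
    linarith [mul_le_mul_of_nonneg_left hc1 hc.le]
  set ε := μ * ε₀ / θ with hεdef
  set w := w₀ / μ * (ρ / ν) with hwdef
  have hε0 : 0 < ε := by positivity
  have hw0 : 0 < w := by positivity
  have hW0 : 0 < Wb := hw₀.trans_le hw₀b
  have hH0 : 0 < Hb := hε₀.trans_le hε₀b
  have hεhi : ε ≤ growth c₀ * Hb := by
    rw [hεdef, div_le_iff₀ hθ0]
    calc μ * ε₀ ≤ 2 / c₀ * Hb := mul_le_mul hμhi hε₀b hε₀.le (by positivity)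
      _ ≤ 4 / c₀ * Hb := mul_le_mul_of_nonneg_right
          ((div_le_div_iff_of_pos_right hc).2 (by norm_num)) hH0.le
      _ = growth c₀ * Hb * (c₀ / 2) := by rw [growth]; field_simp; ring
      _ ≤ growth c₀ * Hb * θ := mul_le_mul_of_nonneg_left hθlo (by positivity)
  have hw'hi : w₀ / μ ≤ growth c₀ * Wb := by
    rw [div_eq_mul_one_div, mul_comm]; exact mul_le_mul (hμlo.trans hg) hw₀b hw₀.le hgp.le
  have hwhi : w ≤ growth c₀ * Wb := by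
    rw [hwdef, div_eq_mul_one_div w₀]
    calc w₀ * (1 / μ) * (ρ / ν) ≤ Wb * (2 / c₀) * (2 / (c₀ / 2)) :=
          mul_le_mul (mul_le_mul hw₀b hμlo (by positivity) hW0.le)
            (div_le_div₀ zero_le_two hρhi (half_pos hc) hν) (by positivity) (by positivity)
      _ = growth c₀ * Wb := by rw [growth]; field_simp; ring
  have hinv' : h ^ 2 / 2 * r' ≤ w * ε ^ 2 := by
    have : w * ε ^ 2 = w₀ * ε₀ ^ 2 * (r' / r₀) := by
      rw [hwdef, hεdef, div_pow, hθ2, hμr]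
      have := (hc.trans_le hr₀).ne'
      field_simp
    rw [this, ← mul_div_assoc, le_div_iff₀ (hc.trans_le hr₀)]
    linarith [mul_le_mul_of_nonneg_left hinv hr'0.le]
  refine ⟨w, ε, hw0, hwhi, hε0, hεhi, hinv', ?_⟩
  have hθε : θ * ε = μ * ε₀ := by rw [hεdef]; field_simp
  have hθεhi : θ * ε ≤ growth c₀ * Hb := by
    rw [hθε]; exact mul_le_mul (hμhi.trans hg) hε₀b hε₀.le hgp.le
  have hS : ∀ u : ℝ, |u| = ε ∨ |u| = θ * ε → Small M c₀ ξ u := fun u hu ↦ hH.mono hc (by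
    rw [abs_of_pos (mul_pos hgp hH0)]
    rcases hu with hu | hu <;> rw [hu]
    exacts [hεhi, hθεhi])
  have hwν : w * ν = w₀ / μ * ρ := by rw [hwdef]; field_simp
  have hw'p : 0 < w₀ / μ := by positivity
  have hμ0 : w₀ / μ * μ = w₀ := by field_simp
  have k1 := hpair w (w₀ / μ) θ ε ε₀ hρ0 hν0 hlν hr0 hr'0 hw'p hwν hθdef hdisc
    (hS _ (Or.inl (abs_of_pos hε0))) (hS _ (Or.inr (abs_of_pos (mul_pos hθ0 hε0)))) hθε
  have k2 := hpair w (w₀ / μ) θ (-ε) (-ε₀) hρ0 hν0 hlν hr0 hr'0 hw'p hwν hθdef hdisc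
    (hS _ (Or.inl (by rw [abs_neg, abs_of_pos hε0])))
    (hS _ (Or.inr (by rw [mul_neg, abs_neg, abs_of_pos (mul_pos hθ0 hε0)])))
    (by rw [mul_neg, hθε, mul_neg])
  rw [← mul_assoc (w₀ / μ) μ, hμ0] at k1 k2
  rw [← sub_eq_add_neg, ← sub_eq_add_neg, neg_sq] at k2
  have hbr : -(δ * (w + w₀ / μ)) ≤ w * r' - w₀ * r₀ - m * (w + w₀ / μ) := by
    have a1 : w * (ν + (m - δ)) ≤ w * r' := mul_le_mul_of_nonneg_left (by linarith) hw0.le
    have a2 : w₀ / μ * (r + (m - δ)) ≤ w₀ / μ * ρ := mul_le_mul_of_nonneg_left hρl hw'p.le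
    have a4 : w₀ / μ * r = w₀ * r₀ := by rw [hμr]; field_simp
    linarith
  have hgain : ξ * (M * c₀ ^ 3 / 2) * c₀ * h ^ 2 ≤
      2 * (ξ * ((1 - 3 * ξ) * (ma * (1 - σ ^ 2) / (8 * (t * (1 - t)) ^ 2))) * (w * ε ^ 2)) := by
    have g2 : c₀ * (h ^ 2 / 2) ≤ w * ε ^ 2 :=
      le_trans (by linarith [mul_le_mul_of_nonneg_left hr' (by positivity : (0:ℝ) ≤ h ^ 2 / 2)]) hinv'
    have := d.M_pos
    calc ξ * (M * c₀ ^ 3 / 2) * c₀ * h ^ 2
        = 2 * (ξ * (M * c₀ ^ 3 / 2) * (c₀ * (h ^ 2 / 2))) := by ring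
      _ ≤ _ := mul_le_mul_of_nonneg_left (mul_le_mul (mul_le_mul_of_nonneg_left d.coeff_ge d.ξ_pos.le)
          g2 (by positivity) (mul_nonneg d.ξ_pos.le ((by positivity : (0:ℝ) ≤ M * c₀ ^ 3 / 2).trans
            d.coeff_ge))) zero_le_two
  have hδw : δ * (w + w₀ / μ) ≤ δ * (2 * (growth c₀ * Wb)) :=
    mul_le_mul_of_nonneg_left (by linarith) d.δ_nonneg
  generalize σ - ma * (1 - σ ^ 2) * ((1 - 2 * t) / (2 * (t * (1 - t)))) = A at k1 k2
  generalize ξ * ((1 - 3 * ξ) * (ma * (1 - σ ^ 2) / (8 * (t * (1 - t)) ^ 2))) = γ at k1 k2 hgain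
  unfold spread
  linarith

end Extremal

end Vale.Agent.P084.Gen
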