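import Vale.Agent.P084.Gen.Link

/-!
The chain contradiction and the linear extension.
-/

open Real Set Metric

noncomputable section

namespace Vale.Agent.P084.Gen

variable {X Y : Type*} [NormedAddCommGroup X] [NormedSpace ℝ X] [NormedAddCommGroup Y]
  [NormedSpace ℝ Y] {F : X → Y} {G : Y → X}

/-- A near maximiser with a sufficiently small error is impossible. -/
lemma exists_tolerance (e : SphereExt F G) {x : X} {P M c₀ ξ : ℝ} (hM : 0 < M) (hc : 0 < c₀)
    (hc1 : c₀ ≤ 1) (hξ : 0 < ξ) :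
    ∃ δ₀ : ℝ, 0 < δ₀ ∧ ∀ t σ ma κ m δ, δ ≤ δ₀ → Extremal F x P M t σ ma κ m δ c₀ ξ →
      ∀ a, ¬ Base F (t • x) ((t + κ) • F x) m δ a := by
  have hK : 1 ≤ growth c₀ := by
    rw [growth, le_div_iff₀ (by positivity)]; linarith [pow_le_one₀ (n := 2) hc.le hc1]
  have hKp : 0 < growth c₀ := by linarith
  set g := ξ * (M * c₀ ^ 3 / 2) * c₀
  have hg : 0 < g := by positivity
  set C := 4 * crossBound c₀ ^ 2 / (M * c₀) + 1
  have hsl : 0 < slopeBound c₀ := by unfold slopeBound; positivity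
  have hcb : 0 < crossBound c₀ := by unfold crossBound; linarith
  obtain ⟨n, hn⟩ := exists_nat_gt (C / (g / 2))
  set H := min (min (c₀ / 2) (ξ / slopeBound c₀))
    (min (M * ξ * c₀ ^ 2 / 16 / crossBound c₀) (ξ * c₀ ^ 4))
  have hH : 0 < H := lt_min (lt_min (by positivity) (by positivity))
    (lt_min (by positivity) (by positivity))
  set h := H / growth c₀ ^ (n + 1)
  have hh : 0 < h := by positivity
  have hsmallH : Small M c₀ ξ H := by
    have a1 : H ≤ c₀ / 2 := (min_le_left _ _).trans (min_le_left _ _)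
    have a2 : H ≤ ξ / slopeBound c₀ := (min_le_left _ _).trans (min_le_right _ _)
    have a3 : H ≤ M * ξ * c₀ ^ 2 / 16 / crossBound c₀ := (min_le_right _ _).trans (min_le_left _ _)
    have a4 : H ≤ ξ * c₀ ^ 4 := (min_le_right _ _).trans (min_le_right _ _)
    rw [le_div_iff₀ hsl, mul_comm] at a2
    rw [le_div_iff₀ hcb, mul_comm] at a3
    rw [Small, abs_of_pos hH]
    exact ⟨by linarith, a2, a3, a4⟩
  have hsmall : ∀ j ≤ n + 1, Small M c₀ ξ (growth c₀ ^ j * h) := fun j hj ↦ by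
    refine hsmallH.mono hc ?_
    rw [abs_of_pos (mul_pos (pow_pos hKp j) hh), abs_of_pos hH]
    calc growth c₀ ^ j * h ≤ growth c₀ ^ (n + 1) * h :=
          mul_le_mul_of_nonneg_right (pow_le_pow_right₀ hK hj) hh.le
      _ = H := mul_div_cancel₀ _ (by positivity)
  refine ⟨min (h ^ 2 / 2) (g * h ^ 2 / (8 * growth c₀ ^ (n + 1))),
    lt_min (by positivity) (by positivity), fun t σ ma κ m δ hδ d a ha ↦ ?_⟩
  have hδ1 : 2 * δ ≤ h ^ 2 := by linarith [hδ.trans (min_le_left _ _)]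
  have hδ2 : 8 * δ * growth c₀ ^ (n + 1) ≤ g * h ^ 2 := by
    have := (le_div_iff₀ (by positivity)).1 (hδ.trans (min_le_right _ _))
    linarith
  have hstar := star d.bound d.norm_Fx d.M_pos.le d.t_pos d.t_lt d.σ_lt d.ma_def d.κ_def d.m_def
  have hz : ‖t • x‖ < 1 := by rw [d.norm_z]; exact d.t_lt
  have chain : ∀ j ≤ n, ∃ (b a' : X) (μ w ε : ℝ), ‖b‖ = 1 ∧ 0 < μ ∧ t • x - a' = μ • (b - t • x) ∧
      Base F (t • x) ((t + κ) • F x) m δ a' ∧
      0 < w ∧ w ≤ growth c₀ ^ j ∧ 0 < ε ∧ ε ≤ growth c₀ ^ j * h ∧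
      h ^ 2 / 2 * ‖t • x - b‖ ≤ w * ε ^ 2 ∧
      w * (spread x b t ε - 2 * ‖t • x - b‖) ≤ C * h ^ 2 - j * (g / 2 * h ^ 2) := by
    intro j hj
    induction j with
    | zero =>
      obtain ⟨b, a', l, μ, hb, -, -, hμ, hax, hbase, hνu, -⟩ := exists_round e hz d.Q_lt hstar ha
      refine ⟨b, a', μ, 1, h, hb, hμ, hax, hbase, one_pos, by simp, hh, by simp, ?_, ?_⟩
      · have := mul_le_mul_of_nonneg_left (d.dist_bounds b hb).2 (by positivity : (0:ℝ) ≤ h ^ 2 / 2)
        linarith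
      · have := d.first e (h := h) (by simpa using hsmall 0 (Nat.zero_le _)) hb hνu
        simp only [C, Nat.cast_zero, zero_mul, one_mul, sub_zero, add_mul]
        linarith
    | succ j ih =>
      obtain ⟨b₀, a₁, μ₀, w₀, ε₀, hb₀, hμ₀, hax₀, hbase₀, hw₀, hw₀b, hε₀, hε₀b, hinv, hZ⟩ :=
        ih (by omega)
      obtain ⟨b, a', l, μ, hb, hl, hby, hμ, hax, hbase, hνu, hνl⟩ :=
        exists_round e hz d.Q_lt hstar hbase₀
      have hsm : Small M c₀ ξ (growth c₀ * (growth c₀ ^ j * h)) := by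
        rw [← mul_assoc, ← pow_succ']; exact hsmall _ (by omega)
      obtain ⟨w, ε, hw, hwb, hε, hεb, hinv', hstep⟩ :=
        d.next e hb₀ hμ₀ hax₀ hbase₀ hb hl hby hνu hνl hw₀ hw₀b hε₀ hε₀b hsm hinv
      refine ⟨b, a', μ, w, ε, hb, hμ, hax, hbase, hw, by rwa [pow_succ'], hε,
        by rwa [pow_succ', mul_assoc], hinv', ?_⟩
      have hpow : growth c₀ * growth c₀ ^ j ≤ growth c₀ ^ (n + 1) := by
        rw [← pow_succ']; exact pow_le_pow_right₀ hK (by omega)
      have := mul_le_mul_of_nonneg_left hpow (by linarith [d.δ_nonneg] : (0:ℝ) ≤ δ)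
      push_cast
      simp only [g] at hδ2 hZ ⊢
      linarith
  obtain ⟨b, a', μ, w, ε, hb, -, -, -, hw, -, -, -, -, hZ⟩ := chain n le_rfl
  have h0 : 0 ≤ w * (spread x b t ε - 2 * ‖t • x - b‖) :=
    mul_nonneg hw.le (sub_nonneg.2 (spread_ge x b t ε))
  rw [div_lt_iff₀ (by positivity)] at hn
  have := mul_lt_mul_of_pos_right hn (pow_pos hh 2)
  linarith

/-- The excess of `(t, y, k)`. -/
def excess (F : X → Y) (x : X) (t : ℝ) (y : X) (k : StrongDual ℝ Y) : ℝ :=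
  k (t • F x - F y) - ‖t • x - y‖

/-- The admissible parameters. -/
def Adm (t : ℝ) (y : X) (k : StrongDual ℝ Y) : Prop := 0 < t ∧ t < 1 ∧ ‖y‖ = 1 ∧ ‖k‖ ≤ 1

lemma excess_bounds (e : SphereExt F G) {x : X} (hx : ‖x‖ = 1) {t : ℝ} {y : X}
    {k : StrongDual ℝ Y} (h : Adm t y k) :
    excess F x t y k ≤ (1 - t) * (1 - k (F x)) ∧ excess F x t y k ≤ t * (1 + k (F x)) := by
  obtain ⟨ht, ht1, hy, hk⟩ := h
  have hz : ‖t • x‖ = t := by rw [norm_smul, hx, mul_one, Real.norm_eq_abs, abs_of_pos ht]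
  have h1 : k (F x) - k (F y) ≤ ‖x - y‖ := by
    rw [← map_sub, ← unit_dist e hx hy]
    exact (le_abs_self _).trans (abs_apply_le hk _)
  have h2 : -1 ≤ k (F y) := by
    have := (abs_le.1 (abs_apply_le hk (F y))).1
    rwa [e.hnorm, hy] at this
  have h3 : ‖x - y‖ ≤ ‖t • x - y‖ + (1 - t) := by
    refine (norm_sub_le_norm_sub_add_norm_sub x (t • x) y).trans ?_
    rw [show x - t • x = (1 - t) • x by module, norm_smul, hx, mul_one, Real.norm_eq_abs,
      abs_of_pos (by linarith)]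
    linarith
  have h4 : 1 - t ≤ ‖t • x - y‖ := by
    have := norm_sub_norm_le y (t • x)
    rwa [norm_sub_rev, hy, hz] at this
  simp only [excess, map_sub, map_smul, smul_eq_mul]
  constructor <;> linarith

lemma excess_le_weight (e : SphereExt F G) {x : X} (hx : ‖x‖ = 1) {t : ℝ} {y : X}
    {k : StrongDual ℝ Y} (h : Adm t y k) (hpos : 0 < excess F x t y k) :
    0 < weight t (k (F x)) ∧ excess F x t y k ≤ weight t (k (F x)) := by
  obtain ⟨h1, h2⟩ := excess_bounds e hx h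
  obtain ⟨ht, ht1, -, -⟩ := h
  have a1 : 0 < 1 - k (F x) := (mul_pos_iff_of_pos_left (by linarith)).1 (hpos.trans_le h1)
  have a2 : 0 < 1 + k (F x) := (mul_pos_iff_of_pos_left ht).1 (hpos.trans_le h2)
  have hT : 0 < t * (1 - t) := mul_pos ht (by linarith)
  have hY : 0 < 1 - k (F x) ^ 2 := by
    rw [show 1 - k (F x) ^ 2 = (1 - k (F x)) * (1 + k (F x)) by ring]; positivity
  have hw : 0 < weight t (k (F x)) := mul_pos (Real.sqrt_pos.2 hT) (Real.sqrt_pos.2 hY)
  refine ⟨hw, (pow_le_pow_iff_left₀ hpos.le hw.le two_ne_zero).1 ?_⟩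
  rw [weight, mul_pow, Real.sq_sqrt hT.le, Real.sq_sqrt hY.le, sq]
  calc excess F x t y k * excess F x t y k
      ≤ ((1 - t) * (1 - k (F x))) * (t * (1 + k (F x))) :=
        mul_le_mul h1 h2 hpos.le (hpos.le.trans h1)
    _ = _ := by ring

/-- The key inequality. -/
theorem dist_scaled_le (e : SphereExt F G) {x y : X} (hx : ‖x‖ = 1) (hy : ‖y‖ = 1) {t : ℝ}
    (ht : 0 < t) (ht1 : t < 1) : ‖t • F x - F y‖ ≤ ‖t • x - y‖ := by
  by_contra hlt
  obtain ⟨k₀, hk₀, hk₀v⟩ := exists_norming (t • F x - F y)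
  set S := {r : ℝ | ∃ t y k, Adm t y k ∧ 0 < excess F x t y k ∧
    r = excess F x t y k / weight t (k (F x))}
  have h₀ : 0 < excess F x t y k₀ := by rw [excess, hk₀v]; linarith [not_le.1 hlt]
  have hS : S.Nonempty := ⟨_, t, y, k₀, ⟨ht, ht1, hy, hk₀⟩, h₀, rfl⟩
  have hS1 : ∀ r ∈ S, r ≤ 1 := by
    rintro r ⟨t, y, k, h, hp, rfl⟩
    obtain ⟨hw, hle⟩ := excess_le_weight e hx h hp
    exact (div_le_one hw).2 hle
  set M := sSup S
  have hle : ∀ t y k, Adm t y k → excess F x t y k ≤ M * weight t (k (F x)) := fun t y k h ↦ by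
    have hMnn : 0 ≤ M := by
      refine le_csSup_of_le ⟨1, hS1⟩ ⟨_, _, k₀, ⟨ht, ht1, hy, hk₀⟩, h₀, rfl⟩ ?_
      exact div_nonneg h₀.le (mul_nonneg (Real.sqrt_nonneg _) (Real.sqrt_nonneg _))
    rcases le_or_gt (excess F x t y k) 0 with h' | h'
    · exact h'.trans (mul_nonneg hMnn (mul_nonneg (Real.sqrt_nonneg _) (Real.sqrt_nonneg _)))
    · exact (div_le_iff₀ (excess_le_weight e hx h h').1).1
        (le_csSup ⟨1, hS1⟩ ⟨t, y, k, h, h', rfl⟩)
  have hM0 : 0 < M :=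
    lt_of_lt_of_le (div_pos h₀ (excess_le_weight e hx ⟨ht, ht1, hy, hk₀⟩ h₀).1)
      (le_csSup ⟨1, hS1⟩ ⟨t, y, k₀, ⟨ht, ht1, hy, hk₀⟩, h₀, rfl⟩)
  have hM1 : M ≤ 1 := csSup_le hS hS1
  set ξ := (M / 2) ^ 4 / 2560
  have hξ : 0 < ξ := by positivity
  have hξ1 : ξ ≤ 1 := by
    have := pow_le_one₀ (n := 4) (by positivity : 0 ≤ M / 2) (by linarith)
    simp only [ξ]; linarith
  set M₀ := M * (1 - ξ / 8)
  have hM₀M : M₀ < M := mul_lt_of_lt_one_right hM0 (by linarith)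
  have hM₀half : M / 2 ≤ M₀ := by
    calc M / 2 = M * (1 / 2) := by ring
      _ ≤ M₀ := mul_le_mul_of_nonneg_left (by linarith) hM0.le
  have hM₀ : 0 < M₀ := by linarith
  set S' := {r : ℝ | ∃ t y k, Adm t y k ∧ r = excess F x t y k - M₀ * weight t (k (F x))}
  have hS'2 : ∀ r ∈ S', r ≤ 2 := by
    rintro r ⟨t, y, k, h, rfl⟩
    have h2 := (excess_bounds e hx h).2
    have hs := (abs_le.1 (abs_apply_le h.2.2.2 (F x))).2
    rw [e.hnorm, hx] at hs
    have : 0 ≤ M₀ * weight t (k (F x)) :=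
      mul_nonneg hM₀.le (mul_nonneg (Real.sqrt_nonneg _) (Real.sqrt_nonneg _))
    have := mul_le_mul_of_nonneg_left (show 1 + k (F x) ≤ 2 by linarith) h.1.le
    linarith [h.2.1]
  obtain ⟨r, ⟨t₁, y₁, k₁, h₁, hp₁, rfl⟩, hr⟩ := exists_lt_of_lt_csSup hS hM₀M
  set P := sSup S'
  have hP0 : 0 < P := by
    refine lt_of_lt_of_le ?_ (le_csSup ⟨2, hS'2⟩ ⟨t₁, y₁, k₁, h₁, rfl⟩)
    have := (lt_div_iff₀ (excess_le_weight e hx h₁ hp₁).1).1 hr
    linarith
  have hP2 : P ≤ 2 := csSup_le ⟨_, t₁, y₁, k₁, h₁, rfl⟩ hS'2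
  have hB : Bound F x P M₀ := fun t ht ht1 y hy k hk ↦ by
    have := le_csSup ⟨2, hS'2⟩ ⟨t, y, k, ⟨ht, ht1, hy, hk⟩, rfl⟩
    simp only [excess] at this
    linarith
  set c₀ := P ^ 2 / 16
  have hc : 0 < c₀ := by positivity
  have hc4 : c₀ ≤ P / 4 := by
    have := mul_le_mul_of_nonneg_left hP2 hP0.le
    simp only [c₀]; linarith [sq P]
  obtain ⟨δ₀, hδ₀, hno⟩ := exists_tolerance (x := x) (P := P) e hM₀ hc (by linarith) hξ
  set δ := min δ₀ (min (P / 2) (ξ * c₀))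
  have hδ : 0 < δ := lt_min hδ₀ (lt_min (by linarith) (by positivity))
  obtain ⟨r, ⟨t, a, k, hA, rfl⟩, hnear⟩ :=
    exists_lt_of_lt_csSup (s := S') ⟨_, t₁, y₁, k₁, h₁, rfl⟩ (show P - δ < P by linarith)
  have hδP : δ ≤ P / 2 := (min_le_right _ _).trans (min_le_left _ _)
  have hw0 : 0 ≤ weight t (k (F x)) := mul_nonneg (Real.sqrt_nonneg _) (Real.sqrt_nonneg _)
  have hMw : 0 ≤ M₀ * weight t (k (F x)) := mul_nonneg hM₀.le hw0
  obtain ⟨b1, b2⟩ := excess_bounds e hx hA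
  have hFx : ‖F x‖ = 1 := by rw [e.hnorm, hx]
  obtain ⟨ht', ht'', ha, hk⟩ := hA
  have hs := abs_le.1 ((abs_apply_le hk _).trans hFx.le)
  set σ := k (F x) with hσdef
  have c1 : (1 - t) * (1 - σ) ≤ (1 - t) * 2 := mul_le_mul_of_nonneg_left (by linarith) (by linarith)
  have c2 : t * (1 + σ) ≤ t * 2 := mul_le_mul_of_nonneg_left (by linarith) ht'.le
  have c3 : (1 - t) * (1 - σ) ≤ 1 - σ := mul_le_of_le_one_left (by linarith) (by linarith)
  have c4 : t * (1 + σ) ≤ 1 + σ := mul_le_of_le_one_left (by linarith) ht''.le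
  have hY : c₀ ≤ 1 - σ ^ 2 := by
    have := mul_le_mul (show P / 2 ≤ 1 - σ by linarith) (show P / 2 ≤ 1 + σ by linarith)
      (by linarith) (by linarith)
    simp only [c₀]; linarith [sq P, sq σ, sq_nonneg P]
  have hσlt : |σ| < 1 := abs_lt.2 ⟨by linarith, by linarith⟩
  set ma := M₀ * √(t * (1 - t)) / √(1 - σ ^ 2) with hma
  have hmaw : M₀ * weight t σ = ma * (1 - σ ^ 2) := by
    rw [hma, weight, ← mul_div_right_comm, mul_div_assoc, Real.div_sqrt]; ring
  have hma0 : 0 ≤ ma := by rw [hma]; positivity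
  have hup : ma * (1 + σ) ≤ 1 - t := by
    refine le_of_mul_le_mul_left ?_ (by linarith : (0:ℝ) < 1 - σ)
    linarith
  have hlo : ma * (1 - σ) ≤ t := by
    refine le_of_mul_le_mul_left ?_ (by linarith : (0:ℝ) < 1 + σ)
    linarith
  have hPle : P ≤ ξ * ma := by
    have h1 : excess F x t a k - M₀ * weight t σ ≤ (M - M₀) * weight t σ := by
      have := hle t a k ⟨ht', ht'', ha, hk⟩
      rw [← hσdef] at this
      linarith
    have h2 : (M - M₀) * weight t σ ≤ ξ / 4 * (M₀ * weight t σ) := by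
      rw [← mul_assoc]
      refine mul_le_mul_of_nonneg_right ?_ hw0
      have := mul_le_mul_of_nonneg_left hM₀half hξ.le
      simp only [M₀] at this ⊢; linarith
    have h3 : M₀ * weight t σ ≤ ma := by
      rw [hmaw]; exact mul_le_of_le_one_right hma0 (by linarith [sq_nonneg σ])
    have := mul_le_mul_of_nonneg_left h3 hξ.le
    linarith [mul_nonneg hξ.le hma0]
  have d : Extremal F x P M₀ t σ ma (ma * σ) (P + ma) δ c₀ ξ :=
    { bound := hB
      norm_x := hx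
      norm_Fx := hFx
      M_pos := hM₀
      M_le := by linarith
      σ_lt := hσlt
      ma_def := hma
      κ_def := rfl
      m_def := rfl
      δ_nonneg := hδ.le
      δ_le := by linarith
      c₀_pos := hc
      c₀_t := by linarith
      c₀_t' := by linarith
      c₀_σ := hY
      up := hup
      lo := hlo
      ξ_pos := hξ
      ξ_le := div_le_div_of_nonneg_right (pow_le_pow_left₀ (by positivity) hM₀half 4) (by norm_num)
      P_le := hPle
      δ_c₀ := (min_le_right _ _).trans (min_le_right _ _) }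
  refine hno t σ ma (ma * σ) (P + ma) δ (min_le_left _ _) d a ⟨ha, ?_, ?_⟩
  · refine le_trans ?_ ((le_abs_self _).trans (abs_apply_le hk _))
    simp only [excess] at hnear
    rw [map_sub, map_smul, smul_eq_mul] at hnear ⊢
    rw [← hσdef] at hnear ⊢
    linarith
  · exact star hB hFx hM₀.le ht' ht'' hσlt hma rfl rfl a ha

theorem norm_sub_le_of_le (e : SphereExt F G) {a b : X} (h : ‖a‖ ≤ ‖b‖) :
    ‖F a - F b‖ ≤ ‖a - b‖ := by
  rcases eq_or_ne a 0 with rfl | ha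
  · simp [e.map_zero, e.hnorm]
  have hb : b ≠ 0 := fun hb ↦ ha (norm_eq_zero.1 (le_antisymm (by simpa [hb] using h) (norm_nonneg _)))
  rcases h.eq_or_lt with heq | hlt
  · have h1 := e.hcone a b
    rw [heq, ← smul_sub, ← smul_sub, norm_smul, norm_smul] at h1
    exact (mul_left_cancel₀ (by simpa using hb) h1).le
  set R := ‖b‖
  have hR : 0 < R := norm_pos_iff.2 hb
  have ha' : 0 < ‖a‖ := norm_pos_iff.2 ha
  set x := ‖a‖⁻¹ • a
  set y := R⁻¹ • b
  have hx : ‖x‖ = 1 := by simp [x, norm_smul, ha]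
  have hy : ‖y‖ = 1 := by simp [y, R, norm_smul, hb]
  have key := dist_scaled_le e hx hy (t := ‖a‖ / R) (div_pos ha' hR) ((div_lt_one hR).2 hlt)
  have ea : a = R • ((‖a‖ / R) • x) := by
    simp only [x, smul_smul]
    rw [← mul_assoc, mul_div_cancel₀ _ hR.ne', mul_inv_cancel₀ ha'.ne', one_smul]
  have eb : b = R • y := by simp only [y, smul_inv_smul₀ hR.ne']
  rw [ea, eb, e.hhom R hR, e.hhom R hR, e.hhom _ (div_pos ha' hR), ← smul_sub, ← smul_sub,
    norm_smul, norm_smul]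
  exact mul_le_mul_of_nonneg_left key (norm_nonneg _)

theorem norm_map_sub_le (e : SphereExt F G) (a b : X) : ‖F a - F b‖ ≤ ‖a - b‖ := by
  rcases le_total ‖a‖ ‖b‖ with h | h
  · exact norm_sub_le_of_le e h
  · rw [norm_sub_rev, norm_sub_rev a]; exact norm_sub_le_of_le e h

/-- Every surjective isometry of unit spheres extends linearly. -/
theorem exists_linear_extension (f : sphere (0 : X) 1 ≃ᵢ sphere (0 : Y) 1) :
    ∃ T : X ≃ₗᵢ[ℝ] Y, ∀ z : sphere (0 : X) 1, T (z : X) = (f z : Y) := by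
  have e := sphereExt_homExt f
  let Φ : X ≃ᵢ Y :=
    { toEquiv := ⟨homExt f, homExt f.symm, e.left, e.right⟩
      isometry_toFun := Isometry.of_dist_eq fun a b ↦ by
        refine le_antisymm ?_ ?_
        · simpa [dist_eq_norm] using norm_map_sub_le e a b
        · have h := norm_map_sub_le e.symm (homExt f a) (homExt f b)
          rw [e.left, e.left] at h
          simpa [dist_eq_norm] using h }
  refine ⟨Φ.toRealLinearIsometryEquivOfMapZero (homExt_zero f), fun z ↦ ?_⟩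
  simpa [Φ] using homExt_apply f one_pos z

end Vale.Agent.P084.Gen
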